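import Vale.Agent.P095.UZ.ZConn
import Vale.Agent.P101.Transfer

/-!
# P095 [UZ]: the unitary group of the Jiang-Su algebra is path connected
-/

namespace Vale.Agent.P095.UZ

open Vale.Agent.P101

universe u

/-- The unitary group of a limit of prime dimension drop algebras is path connected. -/
theorem pathConnectedSpace_unitary {Z : Type u} [CStarAlgebra Z] (hZ : IsPrimeDimDropLimit Z) :
    PathConnectedSpace (unitary Z) :=
  pathConnected_unitary hZ.isDimDropLimit

end Vale.Agent.P095.UZ
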