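import Vale.Agent.P095.UZ.UDefs

/-!
# P095 [UZ], row U1: a loop of unit vectors can be pushed off `-e_i`
-/

open Filter Topology unitInterval
open scoped ComplexOrder Kronecker

namespace Vale.Agent.P095.UZ

open Vale.Agent.P101

universe u v

namespace Avoid

theorem exists_near (f : unitInterval → ℝ) (hf : Continuous f) {ε : ℝ} (hε : 0 < ε) :
    ∃ p : Polynomial ℝ, ∀ t : unitInterval, |p.eval (t : ℝ) - f t| < ε := by
  obtain ⟨p, hp⟩ := exists_polynomial_near_continuousMap 0 1 ⟨f, hf⟩ ε hε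
  refine ⟨p, fun t => ?_⟩
  have h1 := (ContinuousMap.norm_lt_iff _ hε).1 hp t
  simpa using h1

/-- a continuous path in the plane can be pushed off `0` -/
theorem exists_ne_zero (w : unitInterval → ℂ) (hw : Continuous w) {ε : ℝ} (hε : 0 < ε) :
    ∃ w' : unitInterval → ℂ, Continuous w' ∧ (∀ t, ‖w' t - w t‖ < ε) ∧ ∀ t, w' t ≠ 0 := by
  obtain ⟨p, hp⟩ := exists_near (fun t => (w t).re) (Complex.continuous_re.comp hw)
    (by positivity : 0 < ε / 4)
  obtain ⟨q, hq⟩ := exists_near (fun t => (w t).im) (Complex.continuous_im.comp hw)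
    (by positivity : 0 < ε / 4)
  let P : ℝ → ℂ := fun x => ((p.eval x : ℝ) : ℂ) + ((q.eval x : ℝ) : ℂ) * Complex.I
  have hP : ContDiff ℝ 1 P := by
    have h1 : ContDiff ℝ 1 (fun x : ℝ => p.eval x) := by
      simpa using p.contDiff_aeval (𝕜 := ℝ) 1
    have h2 : ContDiff ℝ 1 (fun x : ℝ => q.eval x) := by
      simpa using q.contDiff_aeval (𝕜 := ℝ) 1
    exact (Complex.ofRealCLM.contDiff.comp h1).add
      ((Complex.ofRealCLM.contDiff.comp h2).mul contDiff_const)
  have hd : Dense (Set.range P)ᶜ := by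
    refine hP.dense_compl_range_of_finrank_lt_finrank ?_
    rw [Module.finrank_self, Complex.finrank_real_complex]
    norm_num
  obtain ⟨b, hb, hb'⟩ := hd.exists_dist_lt 0 (by positivity : 0 < ε / 4)
  rw [dist_zero_left] at hb'
  refine ⟨fun t => P t - b, ?_, fun t => ?_, fun t ht => ?_⟩
  · exact (hP.continuous.comp continuous_subtype_val).sub continuous_const
  · have e1 : P t - b - w t = ((p.eval (t : ℝ) - (w t).re : ℝ) : ℂ) +
        ((q.eval (t : ℝ) - (w t).im : ℝ) : ℂ) * Complex.I - b := by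
      apply Complex.ext <;> simp [P] <;> ring
    rw [e1]
    calc _ ≤ ‖((p.eval (t : ℝ) - (w t).re : ℝ) : ℂ)‖ +
        ‖((q.eval (t : ℝ) - (w t).im : ℝ) : ℂ) * Complex.I‖ + ‖b‖ :=
          (norm_sub_le _ _).trans (add_le_add (norm_add_le _ _) le_rfl)
      _ < ε / 4 + ε / 4 + ε / 4 := by
          rw [norm_mul, Complex.norm_I, mul_one, Complex.norm_real, Complex.norm_real]
          have h1 := hp t
          have h2 := hq t
          simp only [Real.norm_eq_abs]
          linarith
      _ < ε := by linarith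
  · exact hb ⟨t, sub_eq_zero.1 ht⟩

variable {ι : Type*} [Fintype ι]

theorem isUnitVec_iff (v : ι → ℂ) : IsUnitVec v ↔ ∑ k, ‖v k‖ ^ 2 = 1 := by
  unfold IsUnitVec
  have h1 : ∑ k, star (v k) * v k = ((∑ k, ‖v k‖ ^ 2 : ℝ) : ℂ) := by
    rw [Complex.ofReal_sum]
    refine Finset.sum_congr rfl fun k _ => ?_
    rw [Complex.star_def, Complex.conj_mul', Complex.ofReal_pow]
  rw [h1]
  exact_mod_cast Iff.rfl

theorem norm_le {v : ι → ℂ} (h : IsUnitVec v) (k : ι) : ‖v k‖ ≤ 1 := by
  rw [isUnitVec_iff] at h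
  have h1 : ‖v k‖ ^ 2 ≤ ∑ k, ‖v k‖ ^ 2 :=
    Finset.single_le_sum (f := fun k => ‖v k‖ ^ 2) (fun _ _ => by positivity) (Finset.mem_univ k)
  rw [h] at h1
  nlinarith [norm_nonneg (v k)]

end Avoid

open Avoid in
theorem exists_avoid {ι : Type*} [Fintype ι] [DecidableEq ι] {i j : ι} (hij : i ≠ j)
    (v : unitInterval → ι → ℂ) (hc : Continuous v)
    (hv : ∀ t, IsUnitVec (v t)) (h0 : v 0 = Pi.single i 1) (h1 : v 1 = Pi.single i 1) :
    ∃ v' : unitInterval → ι → ℂ, Continuous v' ∧ (∀ t, IsUnitVec (v' t)) ∧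
      v' 0 = Pi.single i 1 ∧ v' 1 = Pi.single i 1 ∧ (∀ t, v' t i ≠ -1) ∧
      (∀ t, ∑ k, star (v' t k) * v t k ≠ -1) ∧
      ∀ t k, k ≠ i → k ≠ j → v t k = 0 → v' t k = 0 := by
  have hck : ∀ k, Continuous fun t => v t k := fun k => (continuous_apply k).comp hc
  obtain ⟨w', hw', hwn, hw0⟩ := exists_ne_zero (fun t => v t j) (hck j)
    (by norm_num : (0 : ℝ) < 1 / 4)
  let χ : unitInterval → ℝ := fun t => max 0 (min 1 (1 - 2 * (v t i).re))
  have hχc : Continuous χ := by
    have := Complex.continuous_re.comp (hck i)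
    exact continuous_const.max (continuous_const.min (continuous_const.sub
      (continuous_const.mul this)))
  have hχ0 : ∀ t, 0 ≤ χ t := fun t => le_max_left _ _
  have hχ1 : ∀ t, χ t ≤ 1 := fun t => max_le zero_le_one (min_le_left _ _)
  have hχa : ∀ t, 1 / 2 ≤ (v t i).re → χ t = 0 := fun t ht =>
    max_eq_left ((min_le_right _ _).trans (by linarith))
  have hχb : ∀ t, (v t i).re ≤ 0 → χ t = 1 := fun t ht => by
    show max 0 (min 1 (1 - 2 * (v t i).re)) = 1
    rw [min_eq_left (by linarith), max_eq_right zero_le_one]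
  let δ : unitInterval → ℂ := fun t => (χ t : ℂ) * (w' t - v t j)
  have hδc : Continuous δ := (Complex.continuous_ofReal.comp hχc).mul (hw'.sub (hck j))
  have hδn : ∀ t, ‖δ t‖ ≤ 1 / 4 := fun t => by
    show ‖(χ t : ℂ) * (w' t - v t j)‖ ≤ _
    rw [norm_mul, Complex.norm_real, Real.norm_eq_abs, abs_of_nonneg (hχ0 t)]
    calc _ ≤ 1 * (1 / 4) := mul_le_mul (hχ1 t) (hwn t).le (norm_nonneg _) zero_le_one
      _ = 1 / 4 := one_mul _
  let u : unitInterval → ι → ℂ := fun t k => v t k + if k = j then δ t else 0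
  have huc : Continuous u := by
    refine continuous_pi fun k => ?_
    by_cases hk : k = j
    · simp only [u, if_pos hk]
      exact (hck k).add hδc
    · simp only [u, if_neg hk, add_zero]
      exact hck k
  let r : unitInterval → ℝ := fun t => ∑ k, ‖u t k‖ ^ 2
  have hrc : Continuous r := continuous_finsetSum _ fun k _ =>
    (((continuous_apply k).comp huc).norm).pow 2
  have hvn : ∀ t, ∑ k, ‖v t k‖ ^ 2 = 1 := fun t => (isUnitVec_iff _).1 (hv t)
  have hvj : ∀ t, ‖v t j‖ ≤ 1 := fun t => norm_le (hv t) j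
  have hr : ∀ t, r t = 1 - ‖v t j‖ ^ 2 + ‖v t j + δ t‖ ^ 2 := by
    intro t
    have e1 : r t - ∑ k, ‖v t k‖ ^ 2 = ‖v t j + δ t‖ ^ 2 - ‖v t j‖ ^ 2 := by
      show ∑ k, ‖u t k‖ ^ 2 - _ = _
      rw [← Finset.sum_sub_distrib, Finset.sum_eq_single j]
      · simp [u]
      · intro k _ hk
        simp [u, hk]
      · intro h
        exact absurd (Finset.mem_univ j) h
    rw [hvn] at e1
    linarith
  have hrpos : ∀ t, 0 < r t := by
    intro t
    rw [hr]
    have h2 : ‖v t j‖ - 1 / 4 ≤ ‖v t j + δ t‖ := by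
      have := norm_sub_norm_le (v t j) (-δ t)
      rw [norm_neg, sub_neg_eq_add] at this
      have := hδn t
      linarith
    have h3 := norm_nonneg (v t j + δ t)
    have h4 := norm_nonneg (v t j)
    have h5 := hvj t
    rcases le_total ‖v t j‖ (1 / 4) with h6 | h6
    · nlinarith
    · nlinarith
  have hsq : ∀ t, (√(r t) : ℂ) ≠ 0 := fun t => by
    exact_mod_cast (Real.sqrt_pos.2 (hrpos t)).ne'
  let v' : unitInterval → ι → ℂ := fun t k => (√(r t) : ℂ)⁻¹ * u t k
  have hv'c : Continuous v' := continuous_pi fun k =>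
    ((Complex.continuous_ofReal.comp (Real.continuous_sqrt.comp hrc)).inv₀ hsq).mul
      ((continuous_apply k).comp huc)
  have hv'n : ∀ t k, ‖v' t k‖ ^ 2 = (r t)⁻¹ * ‖u t k‖ ^ 2 := by
    intro t k
    show ‖(√(r t) : ℂ)⁻¹ * u t k‖ ^ 2 = _
    rw [norm_mul, norm_inv, Complex.norm_real, Real.norm_eq_abs,
      abs_of_nonneg (Real.sqrt_nonneg _), mul_pow, inv_pow, Real.sq_sqrt (hrpos t).le]
  have hv'1 : ∀ t, ∑ k, ‖v' t k‖ ^ 2 = 1 := by
    intro t
    simp_rw [hv'n, ← Finset.mul_sum]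
    exact inv_mul_cancel₀ (hrpos t).ne'
  have hend : ∀ t, v t = Pi.single i 1 → v' t = Pi.single i 1 := by
    intro t ht
    have h2 : χ t = 0 := hχa t (by rw [ht, Pi.single_eq_same, Complex.one_re]; norm_num)
    have h3 : δ t = 0 := by
      show (χ t : ℂ) * _ = 0
      rw [h2, Complex.ofReal_zero, zero_mul]
    have h4 : r t = 1 := by
      rw [hr, h3, add_zero]
      ring
    funext k
    show (√(r t) : ℂ)⁻¹ * (v t k + if k = j then δ t else 0) = _
    rw [h4, h3, Real.sqrt_one, Complex.ofReal_one, inv_one, one_mul, ite_self, add_zero, ht]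
  refine ⟨v', hv'c, fun t => (isUnitVec_iff _).2 (hv'1 t), hend 0 h0, hend 1 h1, fun t ht => ?_,
    fun t ht => ?_, fun t k hki hkj hk => ?_⟩
  · -- `v' i = -1`
    have e1 : (√(r t) : ℂ)⁻¹ * v t i = -1 := by
      have : v' t i = (√(r t) : ℂ)⁻¹ * (v t i + if i = j then δ t else 0) := rfl
      rw [if_neg hij, add_zero] at this
      rw [← this]
      exact ht
    have e2 : v t i = -(√(r t) : ℂ) := by
      have := congrArg (fun z => (√(r t) : ℂ) * z) e1
      simp only [mul_neg, mul_one] at this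
      rwa [← mul_assoc, mul_inv_cancel₀ (hsq t), one_mul] at this
    have h2 : (v t i).re ≤ 0 := by
      rw [e2, Complex.neg_re, Complex.ofReal_re]
      linarith [Real.sqrt_nonneg (r t)]
    have h3 : δ t = w' t - v t j := by
      show (χ t : ℂ) * _ = _
      rw [hχb t h2, Complex.ofReal_one, one_mul]
    have h4 : u t j = w' t := by
      show v t j + (if j = j then δ t else 0) = _
      rw [if_pos rfl, h3]
      ring
    have h5 : ‖v' t j‖ ^ 2 = 0 := by
      have h6 : ‖v' t i‖ ^ 2 + ‖v' t j‖ ^ 2 ≤ ∑ k, ‖v' t k‖ ^ 2 := by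
        have h7 : ∑ k ∈ {i, j}, ‖v' t k‖ ^ 2 = ‖v' t i‖ ^ 2 + ‖v' t j‖ ^ 2 :=
          Finset.sum_pair hij
        rw [← h7]
        exact Finset.sum_le_sum_of_subset_of_nonneg (Finset.subset_univ _)
          (fun _ _ _ => by positivity)
      rw [hv'1, ht, norm_neg, norm_one] at h6
      nlinarith [sq_nonneg ‖v' t j‖]
    rw [hv'n, h4] at h5
    have h7 : 0 < ‖w' t‖ := norm_pos_iff.2 (hw0 t)
    have h8 : 0 < (r t)⁻¹ * ‖w' t‖ ^ 2 := mul_pos (inv_pos.2 (hrpos t)) (by positivity)
    linarith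
  · -- `⟨v', v⟩ = -1`
    have e1 : ∑ k, star (v' t k) * v t k =
        (√(r t) : ℂ)⁻¹ * (1 + star (δ t) * v t j) := by
      have e2 : ∀ k, star (v' t k) * v t k =
          (√(r t) : ℂ)⁻¹ * (star (v t k) * v t k + if k = j then star (δ t) * v t j else 0) := by
        intro k
        show star ((√(r t) : ℂ)⁻¹ * (v t k + if k = j then δ t else 0)) * v t k = _
        by_cases hk : k = j
        · subst hk
          simp only [if_true, star_mul', star_add, Complex.star_def, map_inv₀,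
            Complex.conj_ofReal]
          ring
        · simp only [hk, if_false, add_zero, star_mul', Complex.star_def, map_inv₀,
            Complex.conj_ofReal]
          ring
      simp_rw [e2]
      rw [← Finset.mul_sum, Finset.sum_add_distrib, Finset.sum_ite_eq' Finset.univ j,
        if_pos (Finset.mem_univ j), hv t]
    rw [e1] at ht
    have h2 : 1 + star (δ t) * v t j = -(√(r t) : ℂ) := by
      have := congrArg (fun z => (√(r t) : ℂ) * z) ht
      simp only [mul_neg, mul_one] at this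
      rwa [← mul_assoc, mul_inv_cancel₀ (hsq t), one_mul] at this
    have h3 := congrArg Complex.re h2
    rw [Complex.add_re, Complex.one_re, Complex.neg_re, Complex.ofReal_re] at h3
    have h4 : |(star (δ t) * v t j).re| ≤ 1 / 4 := by
      refine (Complex.abs_re_le_norm _).trans ?_
      rw [norm_mul, norm_star]
      calc _ ≤ 1 / 4 * 1 := mul_le_mul (hδn t) (hvj t) (norm_nonneg _) (by norm_num)
        _ = 1 / 4 := mul_one _
    have h5 := (abs_le.1 h4).1
    have h6 := Real.sqrt_nonneg (r t)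
    linarith
  · show (√(r t) : ℂ)⁻¹ * (v t k + if k = j then δ t else 0) = 0
    rw [if_neg hkj, hk, add_zero, mul_zero]

end Vale.Agent.P095.UZ
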