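import Vale.Agent.P095.UZ.UDefs

/-!
# P095 [UZ]: the unitary group of a dimension drop algebra (second copy of row U8)
-/

open Filter Topology unitInterval
open scoped ComplexOrder Kronecker

namespace Vale.Agent.P095.UZ

open Vale.Agent.P101

namespace D71

variable {p q : ℕ}

abbrev Mat (p q : ℕ) := Matrix (Fin p × Fin q) (Fin p × Fin q) ℂ

section ConnU

open scoped Matrix.Norms.L2Operator

theorem exists_angle (s : Set ℂ) (hs : s.Finite) :
    ∃ θ : ℝ, -Complex.exp (Complex.I * θ) ∉ s := by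
  by_contra hcon
  push Not at hcon
  have h1 : Set.InjOn (fun θ : ℝ => -Complex.exp (Complex.I * θ)) (Set.Icc 0 1) := by
    intro a ha b hb hab
    have h2 : Complex.exp (Complex.I * a) = Complex.exp (Complex.I * b) := neg_injective hab
    rw [Complex.exp_eq_exp_iff_exists_int] at h2
    obtain ⟨n, hn⟩ := h2
    have h3 : (a : ℂ) = b + n * (2 * Real.pi) := by
      have h4 : Complex.I * (a : ℂ) = Complex.I * (b + n * (2 * Real.pi)) := by
        rw [hn]; ring
      exact mul_left_cancel₀ Complex.I_ne_zero h4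
    have h5 : a = b + n * (2 * Real.pi) := by exact_mod_cast h3
    have hpi := Real.pi_gt_three
    have h6 : |(n : ℝ) * (2 * Real.pi)| ≤ 1 := by
      have h7 : (n : ℝ) * (2 * Real.pi) = a - b := by linarith
      rw [h7, abs_le]
      constructor <;> linarith [ha.1, ha.2, hb.1, hb.2]
    have h8 : n = 0 := by
      by_contra hne
      have h9 : (1 : ℝ) ≤ |(n : ℝ)| := by
        have := Int.one_le_abs hne
        exact_mod_cast this
      rw [abs_mul, abs_of_pos (by positivity : (0 : ℝ) < 2 * Real.pi)] at h6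
      nlinarith
    rw [h8] at h5
    simpa using h5
  have h2 : (Set.Icc (0 : ℝ) 1).Finite :=
    Set.Finite.of_finite_image (hs.subset (by rintro _ ⟨θ, _, rfl⟩; exact hcon θ)) h1
  exact (Set.Icc_infinite (zero_lt_one' ℝ)) h2

theorem joined_one {n : Type*} [Fintype n] [DecidableEq n]
    (x : unitary (Matrix n n ℂ)) : Joined 1 x := by
  obtain ⟨θ, hθ⟩ := exists_angle (spectrum ℂ (x : Matrix n n ℂ)) (Matrix.finite_spectrum _)
  let a : selfAdjoint (Matrix n n ℂ) := θ • 1
  let e : unitary (Matrix n n ℂ) := selfAdjoint.expUnitary a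
  have h1 : Joined 1 e := selfAdjoint.joined_one_expUnitary a
  have he : (e : Matrix n n ℂ) = Complex.exp (Complex.I * θ) • (1 : Matrix n n ℂ) := by
    have h3 : (e : Matrix n n ℂ) = NormedSpace.exp (Complex.I • (a : Matrix n n ℂ)) :=
      selfAdjoint.expUnitary_coe a
    have h4 : Complex.I • (a : Matrix n n ℂ) =
        algebraMap ℂ (Matrix n n ℂ) (Complex.I * θ) := by
      rw [Algebra.algebraMap_eq_smul_one, mul_smul]
      congr 1
    rw [h3, h4, ← NormedSpace.algebraMap_exp_comm, Algebra.algebraMap_eq_smul_one,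
      Complex.exp_eq_exp_ℂ]
  have h2 : Joined 1 (e⁻¹ * x) := by
    refine Unitary.joined _ _ ?_
    have h3 : ‖((e⁻¹ * x : unitary (Matrix n n ℂ)) : Matrix n n ℂ) - 1‖ < 2 := by
      rw [Unitary.norm_sub_one_lt_two_iff (e⁻¹ * x).2]
      intro h4
      rw [spectrum.mem_iff] at h4
      rw [spectrum.mem_iff] at hθ
      push Not at hθ
      apply h4
      have h5 : (e : Matrix n n ℂ) * (algebraMap ℂ (Matrix n n ℂ) (-1) -
          ((e⁻¹ * x : unitary (Matrix n n ℂ)) : Matrix n n ℂ)) =
          algebraMap ℂ (Matrix n n ℂ) (-Complex.exp (Complex.I * θ)) - x := by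
        have h6 : (e : Matrix n n ℂ) * ((e⁻¹ * x : unitary (Matrix n n ℂ)) : Matrix n n ℂ) =
            x := by
          have h7 : e * (e⁻¹ * x) = x := mul_inv_cancel_left e x
          exact congrArg Subtype.val h7
        rw [mul_sub, h6, he, Algebra.algebraMap_eq_smul_one, Algebra.algebraMap_eq_smul_one]
        simp
      have h6 : IsUnit ((e⁻¹ : unitary (Matrix n n ℂ)) : Matrix n n ℂ) :=
        ⟨Unitary.toUnits e⁻¹, rfl⟩
      have h7 : algebraMap ℂ (Matrix n n ℂ) (-1) -
          ((e⁻¹ * x : unitary (Matrix n n ℂ)) : Matrix n n ℂ) =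
          ((e⁻¹ : unitary (Matrix n n ℂ)) : Matrix n n ℂ) *
            (algebraMap ℂ (Matrix n n ℂ) (-Complex.exp (Complex.I * θ)) - x) := by
        rw [← h5, ← mul_assoc]
        have h8 : ((e⁻¹ : unitary (Matrix n n ℂ)) : Matrix n n ℂ) * (e : Matrix n n ℂ) = 1 :=
          congrArg Subtype.val (inv_mul_cancel e)
        rw [h8, one_mul]
      rw [h7]
      exact h6.mul hθ
    exact h3
  have h3 := h1.mul h2
  rwa [one_mul, mul_inv_cancel_left] at h3

theorem exists_path {n : Type*} [Fintype n] [DecidableEq n]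
    (x : Matrix n n ℂ) (hx : x ∈ Matrix.unitaryGroup n ℂ) :
    ∃ γ : unitInterval → Matrix n n ℂ, Continuous γ ∧ (∀ s, γ s ∈ Matrix.unitaryGroup n ℂ) ∧
      γ 0 = 1 ∧ γ 1 = x := by
  obtain ⟨γ⟩ := joined_one (⟨x, hx⟩ : unitary (Matrix n n ℂ))
  refine ⟨fun s => (γ s : Matrix n n ℂ), by fun_prop, fun s => (γ s).2, ?_, ?_⟩
  · simp
  · simp

end ConnU

/-- homotopies in the dimension drop algebra -/
theorem joined_of_htp (F : C(unitInterval × unitInterval, Mat p q))
    (hF : ∀ x, F x ∈ Matrix.unitaryGroup (Fin p × Fin q) ℂ)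
    (h0 : ∀ s, ∃ x : Matrix (Fin p) (Fin p) ℂ, F (s, 0) = x ⊗ₖ (1 : Matrix (Fin q) (Fin q) ℂ))
    (h1 : ∀ s, ∃ y : Matrix (Fin q) (Fin q) ℂ, F (s, 1) = (1 : Matrix (Fin p) (Fin p) ℂ) ⊗ₖ y)
    (u v : unitary (DimDrop p q))
    (hu : ∀ t, ((u : DimDrop p q) : C(unitInterval, Mat p q)) t = F (0, t))
    (hv : ∀ t, ((v : DimDrop p q) : C(unitInterval, Mat p q)) t = F (1, t)) : Joined u v := by
  let P : unitInterval → unitary (DimDrop p q) := fun s =>
    ⟨⟨F.curry s, h0 s, h1 s⟩, by
      constructor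
      · ext1
        ext1 t
        exact (hF (s, t)).1
      · ext1
        ext1 t
        exact (hF (s, t)).2⟩
  have hP : Continuous P := by
    refine Continuous.subtype_mk (Continuous.subtype_mk ?_ _) _
    exact F.curry.continuous
  refine ⟨⟨⟨P, hP⟩, ?_, ?_⟩⟩
  · ext1
    ext1
    ext1 t
    exact (hu t).symm
  · ext1
    ext1
    ext1 t
    exact (hv t).symm

/-- every element of `unitary (DimDrop p q)` with prescribed pointwise values -/
theorem exists_unitary (f : unitInterval → Mat p q) (hf : Continuous f)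
    (hu : ∀ t, f t ∈ Matrix.unitaryGroup (Fin p × Fin q) ℂ)
    (h0 : ∃ x : Matrix (Fin p) (Fin p) ℂ, f 0 = x ⊗ₖ (1 : Matrix (Fin q) (Fin q) ℂ))
    (h1 : ∃ y : Matrix (Fin q) (Fin q) ℂ, f 1 = (1 : Matrix (Fin p) (Fin p) ℂ) ⊗ₖ y) :
    ∃ u : unitary (DimDrop p q), ∀ t, ((u : DimDrop p q) : C(unitInterval, Mat p q)) t = f t := by
  refine ⟨⟨⟨⟨f, hf⟩, h0, h1⟩, ?_⟩, fun t => rfl⟩
  constructor
  · ext1
    ext1 t
    exact (hu t).1
  · ext1
    ext1 t
    exact (hu t).2

/-- based loops as unitaries of the dimension drop algebra -/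
noncomputable def J (p q : ℕ) : Lp (Fin p × Fin q) →* unitary (DimDrop p q) where
  toFun g := ⟨⟨(⟨Subtype.val, continuous_subtype_val⟩ :
      C(Matrix.unitaryGroup (Fin p × Fin q) ℂ, Mat p q)).comp g.1,
      ⟨⟨1, by
        change ((g.1 0 : Matrix.unitaryGroup (Fin p × Fin q) ℂ) : Mat p q) = _
        rw [g.2.1, Matrix.one_kronecker_one]
        rfl⟩, ⟨1, by
        change ((g.1 1 : Matrix.unitaryGroup (Fin p × Fin q) ℂ) : Mat p q) = _
        rw [g.2.2, Matrix.one_kronecker_one]
        rfl⟩⟩⟩, by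
      constructor
      · ext1
        ext1 t
        exact (g.1 t).2.1
      · ext1
        ext1 t
        exact (g.1 t).2.2⟩
  map_one' := rfl
  map_mul' _ _ := rfl

theorem J_apply (g : Lp (Fin p × Fin q)) (t : unitInterval) :
    ((J p q g : DimDrop p q) : C(unitInterval, Mat p q)) t = val g t := rfl

theorem continuous_J : Continuous (J p q) := by
  refine Continuous.subtype_mk (Continuous.subtype_mk ?_ _) _
  exact (ContinuousMap.continuous_postcomp _).comp continuous_subtype_val

theorem unitary_left (hq : 0 < q) {x : Matrix (Fin p) (Fin p) ℂ}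
    (h : x ⊗ₖ (1 : Matrix (Fin q) (Fin q) ℂ) ∈ Matrix.unitaryGroup (Fin p × Fin q) ℂ) :
    x ∈ Matrix.unitaryGroup (Fin p) ℂ := by
  rw [Matrix.mem_unitaryGroup_iff] at h ⊢
  rw [Matrix.star_eq_conjTranspose, Matrix.conjTranspose_kronecker, Matrix.conjTranspose_one,
    ← Matrix.mul_kronecker_mul, one_mul] at h
  ext a b
  have h1 := congrFun (congrFun h (a, ⟨0, hq⟩)) (b, ⟨0, hq⟩)
  rw [Matrix.kroneckerMap_apply, Matrix.one_apply_eq, mul_one] at h1
  rw [Matrix.star_eq_conjTranspose, h1, Matrix.one_apply, Matrix.one_apply]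
  simp

theorem unitary_right (hp : 0 < p) {y : Matrix (Fin q) (Fin q) ℂ}
    (h : (1 : Matrix (Fin p) (Fin p) ℂ) ⊗ₖ y ∈ Matrix.unitaryGroup (Fin p × Fin q) ℂ) :
    y ∈ Matrix.unitaryGroup (Fin q) ℂ := by
  rw [Matrix.mem_unitaryGroup_iff] at h ⊢
  rw [Matrix.star_eq_conjTranspose, Matrix.conjTranspose_kronecker, Matrix.conjTranspose_one,
    ← Matrix.mul_kronecker_mul, one_mul] at h
  ext a b
  have h1 := congrFun (congrFun h (⟨0, hp⟩, a)) (⟨0, hp⟩, b)
  rw [Matrix.kroneckerMap_apply, Matrix.one_apply_eq, one_mul] at h1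
  rw [Matrix.star_eq_conjTranspose, h1, Matrix.one_apply, Matrix.one_apply]
  simp

theorem kron_unitary {x : Matrix (Fin p) (Fin p) ℂ} {y : Matrix (Fin q) (Fin q) ℂ}
    (hx : x ∈ Matrix.unitaryGroup (Fin p) ℂ) (hy : y ∈ Matrix.unitaryGroup (Fin q) ℂ) :
    x ⊗ₖ y ∈ Matrix.unitaryGroup (Fin p × Fin q) ℂ := by
  rw [Matrix.mem_unitaryGroup_iff] at hx hy ⊢
  rw [Matrix.star_eq_conjTranspose] at hx hy ⊢
  rw [Matrix.conjTranspose_kronecker, ← Matrix.mul_kronecker_mul, hx, hy,
    Matrix.one_kronecker_one]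

theorem continuous_kron {X : Type*} [TopologicalSpace X] {f : X → Matrix (Fin p) (Fin p) ℂ}
    {g : X → Matrix (Fin q) (Fin q) ℂ} (hf : Continuous f) (hg : Continuous g) :
    Continuous fun x => f x ⊗ₖ g x := by
  refine continuous_matrix fun i j => ?_
  simp only [Matrix.kroneckerMap_apply]
  fun_prop

/-- the left end -/
theorem exists_left (hq : 0 < q) {x : Matrix (Fin p) (Fin p) ℂ}
    (h : x ⊗ₖ (1 : Matrix (Fin q) (Fin q) ℂ) ∈ Matrix.unitaryGroup (Fin p × Fin q) ℂ) :
    ∃ u : unitary (DimDrop p q), Joined 1 u ∧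
      ((u : DimDrop p q) : C(unitInterval, Mat p q)) 0 =
        x ⊗ₖ (1 : Matrix (Fin q) (Fin q) ℂ) ∧
      ((u : DimDrop p q) : C(unitInterval, Mat p q)) 1 = 1 := by
  obtain ⟨γ, hγ, hγu, hγ0, hγ1⟩ := exists_path x (unitary_left hq h)
  obtain ⟨u, hu⟩ := exists_unitary (p := p) (q := q)
    (fun t => γ (unitInterval.symm t) ⊗ₖ (1 : Matrix (Fin q) (Fin q) ℂ))
    (continuous_kron (by fun_prop) continuous_const)
    (fun t => kron_unitary (hγu _) (one_mem _)) ⟨_, rfl⟩
    ⟨1, by simp [hγ0]⟩
  refine ⟨u, ?_, by rw [hu]; simp [hγ1], by rw [hu]; simp [hγ0]⟩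
  refine joined_of_htp ⟨fun x => γ (x.1 * unitInterval.symm x.2) ⊗ₖ
    (1 : Matrix (Fin q) (Fin q) ℂ), continuous_kron (by fun_prop) continuous_const⟩
    (fun x => kron_unitary (hγu _) (one_mem _)) (fun s => ⟨_, rfl⟩)
    (fun s => ⟨1, by simp [hγ0]⟩) _ _ (fun t => ?_) (fun t => ?_)
  · change (1 : Mat p q) = _
    simp [hγ0]
  · rw [hu]
    simp

/-- the right end -/
theorem exists_right (hp : 0 < p) {y : Matrix (Fin q) (Fin q) ℂ}
    (h : (1 : Matrix (Fin p) (Fin p) ℂ) ⊗ₖ y ∈ Matrix.unitaryGroup (Fin p × Fin q) ℂ) :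
    ∃ u : unitary (DimDrop p q), Joined 1 u ∧
      ((u : DimDrop p q) : C(unitInterval, Mat p q)) 0 = 1 ∧
      ((u : DimDrop p q) : C(unitInterval, Mat p q)) 1 =
        (1 : Matrix (Fin p) (Fin p) ℂ) ⊗ₖ y := by
  obtain ⟨γ, hγ, hγu, hγ0, hγ1⟩ := exists_path y (unitary_right hp h)
  obtain ⟨u, hu⟩ := exists_unitary (p := p) (q := q)
    (fun t => (1 : Matrix (Fin p) (Fin p) ℂ) ⊗ₖ γ t)
    (continuous_kron continuous_const hγ)
    (fun t => kron_unitary (one_mem _) (hγu _)) ⟨1, by simp [hγ0]⟩ ⟨_, rfl⟩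
  refine ⟨u, ?_, by rw [hu]; simp [hγ0], by rw [hu, hγ1]⟩
  refine joined_of_htp ⟨fun x => (1 : Matrix (Fin p) (Fin p) ℂ) ⊗ₖ γ (x.1 * x.2),
    continuous_kron continuous_const (by fun_prop)⟩
    (fun x => kron_unitary (one_mem _) (hγu _)) (fun s => ⟨1, by simp [hγ0]⟩)
    (fun s => ⟨_, rfl⟩) _ _ (fun t => ?_) (fun t => ?_)
  · change (1 : Mat p q) = _
    simp [hγ0]
  · rw [hu]
    simp

theorem coe_mem (u : unitary (DimDrop p q)) (t : unitInterval) :
    ((u : DimDrop p q) : C(unitInterval, Mat p q)) t ∈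
      Matrix.unitaryGroup (Fin p × Fin q) ℂ := by
  constructor
  · exact congrArg (fun z : DimDrop p q => (z : C(unitInterval, Mat p q)) t) u.2.1
  · exact congrArg (fun z : DimDrop p q => (z : C(unitInterval, Mat p q)) t) u.2.2

/-- every unitary is joined to a based loop -/
theorem exists_loop (hp : 0 < p) (hq : 0 < q) (u : unitary (DimDrop p q)) :
    ∃ g : Lp (Fin p × Fin q), Joined (J p q g) u := by
  have huu := coe_mem u
  obtain ⟨x, hx⟩ := (u : DimDrop p q).2.1
  obtain ⟨y, hy⟩ := (u : DimDrop p q).2.2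
  obtain ⟨a, ha, ha0, ha1⟩ := exists_left (p := p) (q := q) (x := x) hq (hx ▸ huu 0)
  obtain ⟨b, hb, hb0, hb1⟩ := exists_right (p := p) (q := q) (y := y) hp (hy ▸ huu 1)
  let w : unitary (DimDrop p q) := a⁻¹ * (u * b⁻¹)
  have hw : a * w * b = u := by
    rw [mul_inv_cancel_left, inv_mul_cancel_right]
  let f : C(unitInterval, Matrix.unitaryGroup (Fin p × Fin q) ℂ) :=
    ⟨fun t => ⟨((w : DimDrop p q) : C(unitInterval, Mat p q)) t, coe_mem w t⟩,
      Continuous.subtype_mk ((w : DimDrop p q) : C(unitInterval, Mat p q)).continuous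
        (coe_mem w)⟩
  have hval : ∀ t, ((a : DimDrop p q) : C(unitInterval, Mat p q)) t *
      ((w : DimDrop p q) : C(unitInterval, Mat p q)) t *
      ((b : DimDrop p q) : C(unitInterval, Mat p q)) t =
      ((u : DimDrop p q) : C(unitInterval, Mat p q)) t := fun t =>
    congrArg (fun z : unitary (DimDrop p q) => ((z : DimDrop p q) : C(unitInterval, Mat p q)) t)
      hw
  have hf0 : f 0 = 1 := by
    refine Subtype.ext ?_
    have h1 := hval 0
    rw [ha0, hb0, mul_one, hx, ← hx] at h1
    have h2 := huu 0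
    have h3 : star (((u : DimDrop p q) : C(unitInterval, Mat p q)) 0) *
        ((u : DimDrop p q) : C(unitInterval, Mat p q)) 0 = 1 := h2.1
    change ((w : DimDrop p q) : C(unitInterval, Mat p q)) 0 = 1
    calc ((w : DimDrop p q) : C(unitInterval, Mat p q)) 0
        = star (((u : DimDrop p q) : C(unitInterval, Mat p q)) 0) *
          (((u : DimDrop p q) : C(unitInterval, Mat p q)) 0 *
            ((w : DimDrop p q) : C(unitInterval, Mat p q)) 0) := by
          rw [← mul_assoc, h3, one_mul]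
      _ = 1 := by rw [h1, h3]
  have hf1 : f 1 = 1 := by
    refine Subtype.ext ?_
    have h1 := hval 1
    rw [ha1, hb1, one_mul, hy, ← hy] at h1
    have h2 := huu 1
    have h3 : ((u : DimDrop p q) : C(unitInterval, Mat p q)) 1 *
        star (((u : DimDrop p q) : C(unitInterval, Mat p q)) 1) = 1 := h2.2
    change ((w : DimDrop p q) : C(unitInterval, Mat p q)) 1 = 1
    calc ((w : DimDrop p q) : C(unitInterval, Mat p q)) 1
        = (((w : DimDrop p q) : C(unitInterval, Mat p q)) 1 *
          ((u : DimDrop p q) : C(unitInterval, Mat p q)) 1) *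
            star (((u : DimDrop p q) : C(unitInterval, Mat p q)) 1) := by
          rw [mul_assoc, h3, mul_one]
      _ = 1 := by rw [h1, h3]
  refine ⟨⟨f, hf0, hf1⟩, ?_⟩
  have h1 : J p q ⟨f, hf0, hf1⟩ = w := by
    ext1
    ext1
    ext1 t
    rfl
  rw [h1]
  have h2 := (ha.mul (Joined.refl w)).mul hb
  rwa [one_mul, mul_one, hw] at h2

theorem conj_two_pi (r : ℝ) : (starRingEnd ℂ) (2 * Real.pi * Complex.I * (r : ℂ)) =
    -(2 * Real.pi * Complex.I * (r : ℂ)) := by
  rw [map_mul, map_mul, map_mul, Complex.conj_I, Complex.conj_ofReal, Complex.conj_ofReal,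
    map_ofNat (starRingEnd ℂ) 2]
  ring

theorem continuous_starC : Continuous (star : C(unitInterval, Mat p q) → C(unitInterval, Mat p q)) :=
  ContinuousMap.continuous_postcomp (⟨star, continuous_star⟩ : C(Mat p q, Mat p q))

instance : ContinuousStar (DimDrop p q) :=
  ⟨Continuous.subtype_mk (continuous_starC.comp continuous_subtype_val)
    fun f => (DimDrop p q).star_mem' f.2⟩

/-- the loop in the coordinates `{a} × Fin q` is trivial in the dimension drop algebra -/
theorem joined_row (a : Fin p) (w : Lp (Fin p × Fin q))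
    (hw : ∀ t : unitInterval, val w t = zmat (Finset.univ.filter fun k => k.1 = a) t) :
    Joined 1 (J p q w) := by
  let c : unitInterval × unitInterval → ℂ := fun x =>
    Complex.exp (2 * Real.pi * Complex.I * ((x.1 : ℝ) * ((x.2 : ℝ) - 1) : ℝ))
  have hc : Continuous c := by fun_prop
  have hc1 : ∀ x, c x ∈ unitary ℂ := by
    intro x
    rw [Unitary.mem_iff_star_mul_self]
    change star (Complex.exp _) * Complex.exp _ = 1
    rw [Complex.star_def, ← Complex.exp_conj, ← Complex.exp_add, conj_two_pi, neg_add_cancel,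
      Complex.exp_zero]
  have hkron : ∀ x, (Matrix.diagonal fun k : Fin p × Fin q => if k.1 = a then c x else 1) =
      (Matrix.diagonal fun k : Fin p => if k = a then c x else 1) ⊗ₖ
        (1 : Matrix (Fin q) (Fin q) ℂ) := by
    intro x
    rw [← Matrix.diagonal_one, Matrix.diagonal_kronecker_diagonal]
    simp
  have hdu : ∀ x, (Matrix.diagonal fun k : Fin p × Fin q => if k.1 = a then c x else 1) ∈
      Matrix.unitaryGroup (Fin p × Fin q) ℂ := by
    intro x
    rw [Matrix.mem_unitaryGroup_iff, Matrix.star_eq_conjTranspose,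
      Matrix.diagonal_conjTranspose, Matrix.diagonal_mul_diagonal, ← Matrix.diagonal_one]
    congr 1
    funext k
    have h1 : c x * star (c x) = 1 := (hc1 x).2
    by_cases hk : k.1 = a
    · simp only [hk, if_true, Pi.star_apply]
      exact h1
    · simp [hk]
  refine joined_of_htp ⟨fun x => Matrix.diagonal fun k : Fin p × Fin q =>
    if k.1 = a then c x else 1, ?_⟩ hdu (fun s => ⟨_, hkron (s, 0)⟩) (fun s => ⟨1, ?_⟩) _ _
    (fun t => ?_) (fun t => ?_)
  · refine Continuous.matrix_diagonal (continuous_pi fun k => ?_)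
    split_ifs
    · exact hc
    · exact continuous_const
  · change (Matrix.diagonal fun k : Fin p × Fin q => if k.1 = a then c (s, 1) else 1) = _
    rw [Matrix.one_kronecker_one, ← Matrix.diagonal_one]
    congr 1
    funext k
    simp [c]
  · change (1 : Mat p q) = Matrix.diagonal fun k : Fin p × Fin q => if k.1 = a then c (0, t) else 1
    rw [← Matrix.diagonal_one]
    congr 1
    funext k
    simp [c]
  · rw [J_apply, hw]
    change zmat _ _ = Matrix.diagonal fun k : Fin p × Fin q => if k.1 = a then c (1, t) else 1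
    unfold zmat
    congr 1
    funext k
    simp only [Finset.mem_filter, Finset.mem_univ, true_and]
    by_cases hk : k.1 = a
    · simp only [hk, if_true, c]
      have h1 : 2 * Real.pi * Complex.I * ((((1 : unitInterval) : ℝ) * ((t : ℝ) - 1) : ℝ) : ℂ) =
          2 * Real.pi * Complex.I * (t : ℝ) - 2 * Real.pi * Complex.I := by
        push_cast
        simp
        ring
      rw [h1, Complex.exp_sub, Complex.exp_two_pi_mul_I, div_one]
    · simp [hk]

/-- the loop in the coordinates `Fin p × {b}` is trivial in the dimension drop algebra -/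
theorem joined_col (b : Fin q) (w : Lp (Fin p × Fin q))
    (hw : ∀ t : unitInterval, val w t = zmat (Finset.univ.filter fun k => k.2 = b) t) :
    Joined 1 (J p q w) := by
  let c : unitInterval × unitInterval → ℂ := fun x =>
    Complex.exp (2 * Real.pi * Complex.I * ((x.1 : ℝ) * (x.2 : ℝ) : ℝ))
  have hc : Continuous c := by fun_prop
  have hc1 : ∀ x, c x ∈ unitary ℂ := by
    intro x
    rw [Unitary.mem_iff_star_mul_self]
    change star (Complex.exp _) * Complex.exp _ = 1
    rw [Complex.star_def, ← Complex.exp_conj, ← Complex.exp_add, conj_two_pi, neg_add_cancel,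
      Complex.exp_zero]
  have hkron : ∀ x, (Matrix.diagonal fun k : Fin p × Fin q => if k.2 = b then c x else 1) =
      (1 : Matrix (Fin p) (Fin p) ℂ) ⊗ₖ
        (Matrix.diagonal fun k : Fin q => if k = b then c x else 1) := by
    intro x
    rw [← Matrix.diagonal_one, Matrix.diagonal_kronecker_diagonal]
    simp
  have hdu : ∀ x, (Matrix.diagonal fun k : Fin p × Fin q => if k.2 = b then c x else 1) ∈
      Matrix.unitaryGroup (Fin p × Fin q) ℂ := by
    intro x
    rw [Matrix.mem_unitaryGroup_iff, Matrix.star_eq_conjTranspose,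
      Matrix.diagonal_conjTranspose, Matrix.diagonal_mul_diagonal, ← Matrix.diagonal_one]
    congr 1
    funext k
    have h1 : c x * star (c x) = 1 := (hc1 x).2
    by_cases hk : k.2 = b
    · simp only [hk, if_true, Pi.star_apply]
      exact h1
    · simp [hk]
  refine joined_of_htp ⟨fun x => Matrix.diagonal fun k : Fin p × Fin q =>
    if k.2 = b then c x else 1, ?_⟩ hdu (fun s => ⟨1, ?_⟩) (fun s => ⟨_, hkron (s, 1)⟩) _ _
    (fun t => ?_) (fun t => ?_)
  · refine Continuous.matrix_diagonal (continuous_pi fun k => ?_)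
    split_ifs
    · exact hc
    · exact continuous_const
  · change (Matrix.diagonal fun k : Fin p × Fin q => if k.2 = b then c (s, 0) else 1) = _
    rw [Matrix.one_kronecker_one, ← Matrix.diagonal_one]
    congr 1
    funext k
    simp [c]
  · change (1 : Mat p q) = Matrix.diagonal fun k : Fin p × Fin q => if k.2 = b then c (0, t) else 1
    rw [← Matrix.diagonal_one]
    congr 1
    funext k
    simp [c]
  · rw [J_apply, hw]
    change zmat _ _ = Matrix.diagonal fun k : Fin p × Fin q => if k.2 = b then c (1, t) else 1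
    unfold zmat
    congr 1
    funext k
    simp only [Finset.mem_filter, Finset.mem_univ, true_and]
    by_cases hk : k.2 = b
    · simp [hk, c]
    · simp [hk]

/-- the conclusion, from the classification of loops -/
theorem dimDrop_connected_of
    (hloop : ∀ (i : Fin p × Fin q) (z : Lp (Fin p × Fin q)),
      (∀ t : unitInterval, val z t = zmat {i} t) → ∀ g : Lp (Fin p × Fin q),
      ∃ n : ℤ, Joined g (z ^ n))
    (hz : ∀ (S : Finset (Fin p × Fin q)) (i : Fin p × Fin q) (z w : Lp (Fin p × Fin q)),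
      (∀ t : unitInterval, val z t = zmat {i} t) → (∀ t : unitInterval, val w t = zmat S t) →
      Joined w (z ^ S.card))
    (hex : ∀ S : Finset (Fin p × Fin q), ∃ w : Lp (Fin p × Fin q),
      ∀ t : unitInterval, val w t = zmat S t)
    (hp : 0 < p) (hq : 0 < q) (hpq : Nat.Coprime p q) (u : unitary (DimDrop p q)) :
    Joined 1 u := by
  obtain ⟨g, hg⟩ := exists_loop hp hq u
  let a : Fin p := ⟨0, hp⟩
  let b : Fin q := ⟨0, hq⟩
  obtain ⟨z, hzv⟩ := hex {(a, b)}
  obtain ⟨w1, hw1⟩ := hex (Finset.univ.filter fun k => k.1 = a)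
  obtain ⟨w2, hw2⟩ := hex (Finset.univ.filter fun k => k.2 = b)
  have hc1 : (Finset.univ.filter fun k : Fin p × Fin q => k.1 = a).card = q := by
    have h1 : (Finset.univ.filter fun k : Fin p × Fin q => k.1 = a) =
        ({a} : Finset (Fin p)) ×ˢ (Finset.univ : Finset (Fin q)) := by
      ext k
      simp only [Finset.mem_filter, Finset.mem_univ, true_and, Finset.mem_product,
        Finset.mem_singleton, and_true]
    rw [h1, Finset.card_product]
    simp
  have hc2 : (Finset.univ.filter fun k : Fin p × Fin q => k.2 = b).card = p := by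
    have h1 : (Finset.univ.filter fun k : Fin p × Fin q => k.2 = b) =
        (Finset.univ : Finset (Fin p)) ×ˢ ({b} : Finset (Fin q)) := by
      ext k
      simp only [Finset.mem_filter, Finset.mem_univ, true_and, Finset.mem_product,
        Finset.mem_singleton]
    rw [h1, Finset.card_product]
    simp
  let C : Subgroup (unitary (DimDrop p q)) := Subgroup.pathComponentOne _
  have hC : ∀ v : unitary (DimDrop p q), v ∈ C ↔ Joined 1 v := fun v => Iff.rfl
  have h1 : (J p q z) ^ q ∈ C := by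
    have h2 := hz _ (a, b) z w1 hzv hw1
    rw [hc1] at h2
    have h3 := h2.map (continuous_J (p := p) (q := q))
    rw [map_pow] at h3
    exact (joined_row a w1 hw1).trans h3
  have h2 : (J p q z) ^ p ∈ C := by
    have h2 := hz _ (a, b) z w2 hzv hw2
    rw [hc2] at h2
    have h3 := h2.map (continuous_J (p := p) (q := q))
    rw [map_pow] at h3
    exact (joined_col b w2 hw2).trans h3
  have h3 : J p q z ∈ C := by
    have h4 : (1 : ℤ) = p * Nat.gcdA p q + q * Nat.gcdB p q := by
      have := Nat.gcd_eq_gcd_ab p q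
      rw [Nat.Coprime.gcd_eq_one hpq] at this
      exact_mod_cast this
    have h5 : J p q z = ((J p q z) ^ p) ^ (Nat.gcdA p q) * ((J p q z) ^ q) ^ (Nat.gcdB p q) := by
      rw [← zpow_natCast, ← zpow_natCast, ← zpow_mul, ← zpow_mul, ← zpow_add, ← h4, zpow_one]
    rw [h5]
    exact C.mul_mem (C.zpow_mem h2 _) (C.zpow_mem h1 _)
  obtain ⟨n, hn⟩ := hloop (a, b) z hzv g
  have h6 := hn.map (continuous_J (p := p) (q := q))
  rw [map_zpow] at h6
  have h7 : Joined 1 ((J p q z) ^ n) := C.zpow_mem h3 n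
  exact (h7.trans h6.symm).trans hg

end D71

end Vale.Agent.P095.UZ
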