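import Vale.Agent.P095.UZ.Loops
import Vale.Agent.P095.UZ.DimDrop71

/-!
# P095 [UZ]: row U8 from row U7 (second copy)
-/

open Filter Topology unitInterval
open scoped ComplexOrder Kronecker

namespace Vale.Agent.P095.UZ

open Vale.Agent.P101

namespace D71

theorem exists_zmat {ι : Type*} [Fintype ι] [DecidableEq ι] (S : Finset ι) :
    ∃ w : Lp ι, ∀ t : unitInterval, val w t = zmat S t := by
  refine exists_lp (fun t => zmat S t) ?_ ?_ ?_ ?_
  · unfold zmat
    refine Continuous.matrix_diagonal (continuous_pi fun k => ?_)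
    split_ifs
    · fun_prop
    · exact continuous_const
  · intro t
    unfold zmat
    rw [Matrix.mem_unitaryGroup_iff, Matrix.star_eq_conjTranspose,
      Matrix.diagonal_conjTranspose, Matrix.diagonal_mul_diagonal, ← Matrix.diagonal_one]
    congr 1
    funext k
    by_cases hk : k ∈ S
    · simp only [hk, if_true, Pi.star_apply]
      rw [Complex.star_def, ← Complex.exp_conj, ← Complex.exp_add, conj_two_pi, add_neg_cancel,
        Complex.exp_zero]
    · simp [hk]
  · unfold zmat
    rw [← Matrix.diagonal_one]
    congr 1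
    funext k
    simp
  · unfold zmat
    rw [← Matrix.diagonal_one]
    congr 1
    funext k
    by_cases hk : k ∈ S
    · simp [hk, Complex.exp_two_pi_mul_I]
    · simp [hk]

/-- row U8, from row U7 -/
theorem dimDrop_connected_of' {p q : ℕ}
    (hloop : ∀ (i : Fin p × Fin q) (z : Lp (Fin p × Fin q)),
      (∀ t : unitInterval, val z t = zmat {i} t) → ∀ g : Lp (Fin p × Fin q),
      ∃ n : ℤ, Joined g (z ^ n))
    (hz : ∀ (S : Finset (Fin p × Fin q)) (i : Fin p × Fin q) (z w : Lp (Fin p × Fin q)),
      (∀ t : unitInterval, val z t = zmat {i} t) → (∀ t : unitInterval, val w t = zmat S t) →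
      Joined w (z ^ S.card))
    (hp : 0 < p) (hq : 0 < q) (hpq : Nat.Coprime p q) (u : unitary (DimDrop p q)) :
    Joined 1 u :=
  dimDrop_connected_of hloop hz exists_zmat hp hq hpq u

end D71

end Vale.Agent.P095.UZ
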