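import Vale.Agent.P095.UZ.Loops

/-!
# P095 [UZ], row U5: the case of one remaining coordinate
-/

open Filter Topology unitInterval
open scoped ComplexOrder Kronecker

namespace Vale.Agent.P095.UZ

open Vale.Agent.P101

variable {ι : Type*} [Fintype ι] [DecidableEq ι]

namespace ScalarB

/-- circle elements as diagonal unitaries -/
noncomputable def D (i : ι) : Circle →* Matrix.unitaryGroup ι ℂ where
  toFun c := ⟨Matrix.diagonal fun k => if k ∈ ({i} : Finset ι) then (c : ℂ) else 1, by
    rw [Matrix.mem_unitaryGroup_iff', Matrix.star_eq_conjTranspose, Matrix.diagonal_conjTranspose,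
      Matrix.diagonal_mul_diagonal, ← Matrix.diagonal_one]
    congr 1
    funext k
    rw [Pi.star_apply]
    split_ifs
    · have h := Complex.mul_conj (c : ℂ)
      rw [mul_comm, Circle.normSq_coe] at h
      simpa using h
    · simp⟩
  map_one' := by
    apply Subtype.ext
    change Matrix.diagonal _ = (1 : Matrix ι ι ℂ)
    rw [← Matrix.diagonal_one]
    congr 1
    funext k
    simp
  map_mul' c d := by
    apply Subtype.ext
    change Matrix.diagonal _ = Matrix.diagonal _ * Matrix.diagonal _
    rw [Matrix.diagonal_mul_diagonal]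
    congr 1
    funext k
    split_ifs
    · simp
    · simp

theorem D_coe (i : ι) (c : Circle) : (D i c : Matrix ι ι ℂ)
    = Matrix.diagonal fun k => if k ∈ ({i} : Finset ι) then (c : ℂ) else 1 := rfl

theorem continuous_D (i : ι) : Continuous (D i : Circle → Matrix.unitaryGroup ι ℂ) := by
  refine Continuous.subtype_mk (Continuous.matrix_diagonal (continuous_pi fun k => ?_)) _
  split_ifs
  · exact continuous_subtype_val
  · exact continuous_const

theorem zmat_eq (i : ι) (t : ℝ) : zmat {i} t = (D i (Circle.exp (2 * Real.pi * t)) : Matrix ι ι ℂ) := by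
  rw [D_coe]
  unfold zmat
  congr 1
  funext k
  split_ifs
  · rw [Circle.coe_exp]
    congr 1
    push_cast
    ring
  · rfl

/-- evaluation at a point -/
noncomputable def ev (t : unitInterval) : Lp ι →* Matrix.unitaryGroup ι ℂ where
  toFun g := g.1 t
  map_one' := rfl
  map_mul' _ _ := rfl

end ScalarB

open ScalarB

theorem scalar_loop (i : ι) (g : Lp ι)
    (hg : ∀ k, k ≠ i → ∀ t l, val g t l k = (1 : Matrix ι ι ℂ) l k) :
    ∃ (z : Lp ι) (n : ℤ), (∀ t : unitInterval, val z t = zmat {i} t) ∧ Joined g (z ^ n) := by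
  -- the entries of column i
  have hcol : ∀ t k, k ≠ i → val g t k i = 0 := by
    intro t k hk
    have h := (Matrix.mem_unitaryGroup_iff').1 (val_unitary g t)
    have h1 := congrFun (congrFun h k) i
    rw [Matrix.mul_apply, Matrix.one_apply_ne hk] at h1
    rw [Finset.sum_eq_single k] at h1
    · rw [Matrix.star_apply, hg k hk, Matrix.one_apply_eq, star_one, one_mul] at h1
      exact h1
    · intro l _ hl
      rw [Matrix.star_apply, hg k hk, Matrix.one_apply_ne hl, star_zero, zero_mul]
    · intro h2
      exact absurd (Finset.mem_univ k) h2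
  have hmod : ∀ t, star (val g t i i) * val g t i i = 1 := by
    intro t
    have h := (Matrix.mem_unitaryGroup_iff').1 (val_unitary g t)
    have h1 := congrFun (congrFun h i) i
    rw [Matrix.mul_apply, Matrix.one_apply_eq, Finset.sum_eq_single i] at h1
    · rw [Matrix.star_apply] at h1
      exact h1
    · intro l _ hl
      rw [hcol t l hl, mul_zero]
    · intro h2
      exact absurd (Finset.mem_univ i) h2
  have hnorm : ∀ t, val g t i i ∈ Submonoid.unitSphere ℂ := by
    intro t
    change val g t i i ∈ Metric.sphere (0 : ℂ) 1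
    rw [mem_sphere_zero_iff_norm]
    have h := hmod t
    have h2 : ‖val g t i i‖ ^ 2 = 1 := by
      have h3 := congrArg norm h
      rw [norm_mul, norm_star, norm_one] at h3
      nlinarith
    nlinarith [norm_nonneg (val g t i i)]
  let γ : C(unitInterval, Circle) := ⟨fun t => ⟨val g t i i, hnorm t⟩, by
    refine Continuous.subtype_mk ?_ _
    exact (continuous_apply i).comp ((continuous_apply i).comp (continuous_val g))⟩
  have hgD : ∀ t, val g t = (D i (γ t) : Matrix ι ι ℂ) := by
    intro t
    rw [D_coe]
    ext l k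
    by_cases hk : k = i
    · subst hk
      by_cases hl : l = k
      · subst hl
        rw [Matrix.diagonal_apply_eq, if_pos (Finset.mem_singleton_self l)]
        rfl
      · rw [Matrix.diagonal_apply_ne _ hl, hcol t l hl]
    · rw [hg k hk]
      by_cases hl : l = k
      · subst hl
        rw [Matrix.diagonal_apply_eq, Matrix.one_apply_eq, if_neg]
        rwa [Finset.mem_singleton]
      · rw [Matrix.diagonal_apply_ne _ hl, Matrix.one_apply_ne hl]
  have hγ0 : γ 0 = Circle.exp 0 := by
    rw [Circle.exp_zero]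
    apply Subtype.ext
    change val g 0 i i = 1
    have h : val g 0 = 1 := congrArg Subtype.val g.2.1
    rw [h, Matrix.one_apply_eq]
  have hγ1 : γ 1 = 1 := by
    apply Subtype.ext
    change val g 1 i i = 1
    have h : val g 1 = 1 := congrArg Subtype.val g.2.2
    rw [h, Matrix.one_apply_eq]
  let Γ : C(unitInterval, ℝ) := Circle.isCoveringMap_exp.liftPath γ 0 hγ0
  have hΓ : ∀ t, Circle.exp (Γ t) = γ t := fun t =>
    congrFun (Circle.isCoveringMap_exp.liftPath_lifts γ 0 hγ0) t
  have hΓ0 : Γ 0 = 0 := Circle.isCoveringMap_exp.liftPath_zero γ 0 hγ0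
  obtain ⟨n, hn⟩ : ∃ n : ℤ, Γ 1 = n * (2 * Real.pi) := by
    have h := hΓ 1
    rw [hγ1, ← Circle.exp_zero, Circle.exp_eq_exp] at h
    obtain ⟨m, hm⟩ := h
    exact ⟨m, by rw [hm, zero_add]⟩
  obtain ⟨z, hz⟩ := exists_lp (fun t : unitInterval => zmat ({i} : Finset ι) t)
    (by
      have h : (fun t : unitInterval => zmat ({i} : Finset ι) t)
          = fun t : unitInterval => (D i (Circle.exp (2 * Real.pi * (t : ℝ))) : Matrix ι ι ℂ) := by
        funext t
        exact zmat_eq i t
      rw [h]
      exact continuous_subtype_val.comp ((continuous_D i).comp (Circle.exp.continuous.comp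
        (continuous_const.mul continuous_subtype_val))))
    (fun t => by
      change zmat ({i} : Finset ι) t ∈ _
      rw [zmat_eq]
      exact (D i _).2)
    (by
      change zmat ({i} : Finset ι) ((0 : unitInterval) : ℝ) = 1
      rw [zmat_eq]
      simp)
    (by
      change zmat ({i} : Finset ι) ((1 : unitInterval) : ℝ) = 1
      rw [zmat_eq]
      simp)
  refine ⟨z, n, hz, ?_⟩
  let F : C(unitInterval × unitInterval, Matrix ι ι ℂ) :=
    ⟨fun x => (D i (Circle.exp ((1 - (x.1 : ℝ)) * Γ x.2 + x.1 * (n * (2 * Real.pi * x.2)))) :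
      Matrix ι ι ℂ), by
      refine continuous_subtype_val.comp ((continuous_D i).comp (Circle.exp.continuous.comp ?_))
      have h1 : Continuous fun x : unitInterval × unitInterval => Γ x.2 :=
        Γ.continuous.comp continuous_snd
      fun_prop⟩
  refine joined_of_htp F (fun x => (D i _).2) ?_ ?_ g (z ^ n) ?_ ?_
  · intro s
    change (D i (Circle.exp ((1 - (s : ℝ)) * Γ 0 + s * (n * (2 * Real.pi * ((0 : unitInterval) : ℝ))))) :
      Matrix ι ι ℂ) = 1
    rw [hΓ0]
    simp
  · intro s
    change (D i (Circle.exp ((1 - (s : ℝ)) * Γ 1 + s * (n * (2 * Real.pi * ((1 : unitInterval) : ℝ))))) :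
      Matrix ι ι ℂ) = 1
    rw [hn]
    have h : (1 - (s : ℝ)) * (n * (2 * Real.pi)) + s * (n * (2 * Real.pi * ((1 : unitInterval) : ℝ)))
        = 0 + n * (2 * Real.pi) := by
      simp
      ring
    rw [h, Circle.exp_eq_exp.2 ⟨n, rfl⟩, Circle.exp_zero, map_one]
    rfl
  · intro t
    rw [hgD t]
    change _ = (D i (Circle.exp ((1 - ((0 : unitInterval) : ℝ)) * Γ t
      + ((0 : unitInterval) : ℝ) * (n * (2 * Real.pi * t)))) : Matrix ι ι ℂ)
    rw [← hΓ t]
    simp
  · intro t
    have h1 : val (z ^ n) t = (((z.1 t) ^ n : Matrix.unitaryGroup ι ℂ) : Matrix ι ι ℂ) :=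
      congrArg Subtype.val (map_zpow (ev t) z n)
    have h2 : z.1 t = D i (Circle.exp (2 * Real.pi * t)) := by
      apply Subtype.ext
      have h3 := hz t
      change val z t = _
      rw [h3]
      exact zmat_eq i t
    rw [h1, h2, ← map_zpow]
    change _ = (D i (Circle.exp ((1 - ((1 : unitInterval) : ℝ)) * Γ t
      + ((1 : unitInterval) : ℝ) * (n * (2 * Real.pi * t)))) : Matrix ι ι ℂ)
    congr 3
    rw [← Circle.exp_zsmul]
    congr 1
    simp

end Vale.Agent.P095.UZ
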