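import Vale.Agent.P095.UZ.UDefs

/-!
# P095 [U2]: the explicit rotation

The matrix `rot i v` is unitary, has column `i` equal to the unit vector `v`, is continuous
in `v` as long as `v i` is not `-1`, and equals `1` at `v = e_i`.
-/

namespace Vale.Agent.P095.UZ

open Matrix

variable {ι : Type*} [Fintype ι] [DecidableEq ι]

namespace Rot

theorem one_add_ne (z : ℂ) (h : z ≠ -1) : 1 + z ≠ 0 := by
  intro h0
  apply h
  linear_combination h0

theorem one_add_star_ne (z : ℂ) (h : z ≠ -1) : 1 + star z ≠ 0 := by
  intro h0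
  apply one_add_ne z h
  have := congrArg star h0
  simpa using this

omit [Fintype ι] in
theorem star_e (i : ι) : star (Pi.single i (1 : ℂ) : ι → ℂ) = Pi.single i 1 := by
  ext k
  by_cases hk : k = i
  · subst hk; simp
  · simp [Pi.single_eq_of_ne hk]

theorem rot_star_mul (i : ι) (v : ι → ℂ) (h : v i ≠ -1) (hv : star v ⬝ᵥ v = 1) :
    star (rot i v) * rot i v = 1 := by
  have h1 := one_add_star_ne (v i) h
  have h1' := one_add_ne (v i) h
  have hrot : rot i v = 1 - (1 + star (v i))⁻¹ • vecMulVec (Pi.single i 1 + v)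
      (star (Pi.single i 1 + v)) + (2 : ℂ) • vecMulVec v (Pi.single i 1) := by
    rw [rot, star_e]
  set e : ι → ℂ := Pi.single i 1 with he
  have hse : star e = e := star_e i
  have hee : e ⬝ᵥ e = 1 := by simp [he]
  have hev : e ⬝ᵥ v = v i := by simp [he]
  have hve : star v ⬝ᵥ e = star (v i) := by simp [he]
  set a : ℂ := (1 + star (v i))⁻¹ with ha
  have hsa : star a = (1 + v i)⁻¹ := by simp [ha]
  set u : ι → ℂ := e + v with hu
  have huu : star u ⬝ᵥ u = (1 + v i) + (1 + star (v i)) := by
    rw [hu, star_add, hse]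
    simp only [add_dotProduct, dotProduct_add, hee, hev, hve, hv]
    ring
  have huv : star u ⬝ᵥ v = 1 + v i := by
    rw [hu, star_add, hse]
    simp only [add_dotProduct, hev, hv]
    ring
  have hvu : star v ⬝ᵥ u = 1 + star (v i) := by
    rw [hu]
    simp only [dotProduct_add, hve, hv]
    ring
  have hstar : star (rot i v) = 1 - (star a) • vecMulVec u (star u)
      + (2 : ℂ) • vecMulVec e (star v) := by
    rw [hrot, Matrix.star_eq_conjTranspose, Matrix.conjTranspose_add, Matrix.conjTranspose_sub,
      Matrix.conjTranspose_smul, Matrix.conjTranspose_smul, Matrix.conjTranspose_vecMulVec,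
      Matrix.conjTranspose_vecMulVec, Matrix.conjTranspose_one, star_star]
    rw [hse]
    simp
  rw [hstar, hrot]
  have e1 : vecMulVec u (star u) * vecMulVec u (star u)
      = ((1 + v i) + (1 + star (v i))) • vecMulVec u (star u) := by
    rw [Matrix.vecMulVec_mul_vecMulVec, huu]
    ext j k
    simp [Matrix.vecMulVec_apply]
    ring
  have e2 : vecMulVec u (star u) * vecMulVec v e = (1 + v i) • vecMulVec u e := by
    rw [Matrix.vecMulVec_mul_vecMulVec, huv]
    ext j k
    simp [Matrix.vecMulVec_apply]
    ring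
  have e3 : vecMulVec e (star v) * vecMulVec u (star u)
      = (1 + star (v i)) • vecMulVec e (star u) := by
    rw [Matrix.vecMulVec_mul_vecMulVec, hvu]
    ext j k
    simp [Matrix.vecMulVec_apply]
    ring
  have e4 : vecMulVec e (star v) * vecMulVec v e = vecMulVec e e := by
    rw [Matrix.vecMulVec_mul_vecMulVec, hv]
    simp
  have key : (1 - (star a) • vecMulVec u (star u) + (2 : ℂ) • vecMulVec e (star v))
      * (1 - a • vecMulVec u (star u) + (2 : ℂ) • vecMulVec v e)
      = 1 + (- a - star a + star a * a * ((1 + v i) + (1 + star (v i)))) • vecMulVec u (star u)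
        + (2 : ℂ) • vecMulVec v e - (2 * star a * (1 + v i)) • vecMulVec u e
        + (2 : ℂ) • vecMulVec e (star v) - (2 * a * (1 + star (v i))) • vecMulVec e (star u)
        + (4 : ℂ) • vecMulVec e e := by
    simp only [mul_add, add_mul, mul_sub, sub_mul, one_mul, mul_one, smul_mul_assoc,
      mul_smul_comm, e1, e2, e3, e4, smul_smul]
    module
  rw [key]
  have c1 : - a - star a + star a * a * ((1 + v i) + (1 + star (v i))) = 0 := by
    rw [hsa, ha]
    field_simp
    ring
  have c2 : 2 * star a * (1 + v i) = 2 := by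
    rw [hsa]
    field_simp
  have c3 : 2 * a * (1 + star (v i)) = 2 := by
    rw [ha]
    field_simp
  rw [c1, c2, c3]
  ext j k
  simp only [hu, Matrix.add_apply, Matrix.sub_apply, Matrix.smul_apply, Matrix.vecMulVec_apply,
    Pi.add_apply, smul_eq_mul, Pi.star_apply, star_add]
  have hek : star (e k) = e k := by
    have := congrFun hse k
    simpa using this
  rw [hek]
  ring

theorem rot_apply (i : ι) (v : ι → ℂ) (l k : ι) :
    rot i v l k = (1 : Matrix ι ι ℂ) l k
      - (1 + star (v i))⁻¹ * (((Pi.single i 1 : ι → ℂ) l + v l)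
        * ((Pi.single i 1 : ι → ℂ) k + star (v k)))
      + 2 * (v l * (Pi.single i 1 : ι → ℂ) k) := by
  have h : star ((Pi.single i 1 : ι → ℂ) k) = (Pi.single i 1 : ι → ℂ) k := by
    have := congrFun (star_e i) k
    simpa using this
  simp only [rot, Matrix.add_apply, Matrix.sub_apply, Matrix.smul_apply,
    Matrix.vecMulVec_apply, Pi.add_apply, Pi.star_apply, smul_eq_mul, star_add, h]

end Rot

open Rot

theorem rot_unitary (i : ι) {v : ι → ℂ} (hv : IsUnitVec v) (hi : v i ≠ -1) :
    rot i v ∈ Matrix.unitaryGroup ι ℂ := by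
  have h1 := rot_star_mul i v hi (by simpa [IsUnitVec, dotProduct] using hv)
  rw [Matrix.mem_unitaryGroup_iff']
  exact h1

theorem rot_single (i : ι) : rot i (Pi.single i 1) = 1 := by
  ext j k
  rw [rot_apply]
  by_cases hk : k = i
  · subst hk
    simp
    ring
  · simp [Pi.single_eq_of_ne hk]

/-- the column `i` of `rot i v` is `v` -/
theorem rot_col (i : ι) {v : ι → ℂ} (hv : IsUnitVec v) (hi : v i ≠ -1) (k : ι) :
    rot i v k i = v k := by
  have h1 := one_add_star_ne (v i) hi
  rw [rot_apply, Pi.single_eq_same, Matrix.one_apply, Pi.single_apply]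
  field_simp
  ring

/-- the other columns in the directions orthogonal to `v` do not change -/
theorem rot_col_of_eq_zero (i : ι) {v : ι → ℂ} (k l : ι) (hk : k ≠ i) (hvk : v k = 0) :
    rot i v l k = (1 : Matrix ι ι ℂ) l k := by
  rw [rot_apply, hvk, Pi.single_eq_of_ne hk]
  simp

theorem continuousOn_rot (i : ι) :
    ContinuousOn (rot i : (ι → ℂ) → Matrix ι ι ℂ) {v | v i ≠ -1} := by
  refine continuousOn_pi.2 fun l => continuousOn_pi.2 fun k => ?_
  have h : (fun v : ι → ℂ => rot i v l k) = fun v => (1 : Matrix ι ι ℂ) l k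
      - (1 + star (v i))⁻¹ * (((Pi.single i 1 : ι → ℂ) l + v l)
        * ((Pi.single i 1 : ι → ℂ) k + star (v k)))
      + 2 * (v l * (Pi.single i 1 : ι → ℂ) k) := by
    funext v
    exact rot_apply i v l k
  rw [h]
  have hinv : ContinuousOn (fun v : ι → ℂ => (1 + star (v i))⁻¹) {v | v i ≠ -1} := by
    refine ContinuousOn.inv₀ ?_ ?_
    · exact (continuous_const.add (continuous_star.comp (continuous_apply i))).continuousOn
    · intro v hv
      exact one_add_star_ne (v i) hv
  have hc1 : Continuous (fun v : ι → ℂ => (((Pi.single i 1 : ι → ℂ) l + v l)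
        * ((Pi.single i 1 : ι → ℂ) k + star (v k)))) := by fun_prop
  have hc2 : Continuous (fun v : ι → ℂ => 2 * (v l * (Pi.single i 1 : ι → ℂ) k)) := by fun_prop
  exact (continuousOn_const.sub (hinv.mul hc1.continuousOn)).add hc2.continuousOn

end Vale.Agent.P095.UZ
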