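import Vale.Agent.P095.UZ.Loops
import Vale.Agent.P095.UZ.Rot

/-!
# P095 [UZ], row U3: loops of rotations avoiding `-e_i` are null homotopic
-/

open Filter Topology unitInterval
open scoped ComplexOrder Kronecker

namespace Vale.Agent.P095.UZ

open Vale.Agent.P101

universe u v

variable {ι : Type*} [Fintype ι] [DecidableEq ι]

namespace RotLoop

omit [DecidableEq ι] in
theorem isUnitVec_iff {v : ι → ℂ} : IsUnitVec v ↔ ∑ k, Complex.normSq (v k) = 1 := by
  have e : ∑ k, star (v k) * v k = ((∑ k, Complex.normSq (v k) : ℝ) : ℂ) := by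
    rw [Complex.ofReal_sum]
    refine Finset.sum_congr rfl fun k _ => ?_
    rw [Complex.normSq_eq_conj_mul_self]
    rfl
  rw [IsUnitVec, e]
  exact Complex.ofReal_eq_one

/-- The segment from `v` to `e_i`. -/
noncomputable def seg (i : ι) (v : ι → ℂ) (s : ℝ) : ι → ℂ := fun k =>
  ((1 - s : ℝ) : ℂ) * v k + (s : ℂ) * (Pi.single i (1 : ℂ) : ι → ℂ) k

theorem normSq_seg (i : ι) {v : ι → ℂ} (hv : IsUnitVec v) (s : ℝ) :
    ∑ k, Complex.normSq (seg i v s k) = (1 - s) ^ 2 + s ^ 2 + 2 * s * (1 - s) * (v i).re := by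
  have e : ∀ k, Complex.normSq (seg i v s k) = (1 - s) ^ 2 * Complex.normSq (v k) +
      if k = i then s ^ 2 + 2 * s * (1 - s) * (v i).re else 0 := by
    intro k
    by_cases hk : k = i
    · subst hk
      simp [seg, Complex.normSq_apply]
      ring
    · rw [if_neg hk, seg]
      simp only [Pi.single_apply, hk, if_false, mul_zero, add_zero, Complex.normSq_mul,
        Complex.normSq_ofReal]
      ring
  rw [Finset.sum_congr rfl fun k _ => e k, Finset.sum_add_distrib, ← Finset.mul_sum,
    isUnitVec_iff.1 hv, Finset.sum_ite_eq' Finset.univ i]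
  simp
  ring

theorem normSq_le_one {v : ι → ℂ} (hv : IsUnitVec v) (i : ι) : Complex.normSq (v i) ≤ 1 := by
  rw [← isUnitVec_iff.1 hv]
  exact Finset.single_le_sum (f := fun k => Complex.normSq (v k))
    (fun k _ => Complex.normSq_nonneg _) (Finset.mem_univ i)

theorem re_gt {v : ι → ℂ} (hv : IsUnitVec v) (i : ι) (hi : v i ≠ -1) : -1 < (v i).re := by
  have h1 := normSq_le_one hv i
  rw [Complex.normSq_apply] at h1
  by_contra h
  rw [not_lt] at h
  have h2 : (v i).re = -1 := by nlinarith [mul_self_nonneg (v i).im]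
  have h3 : (v i).im = 0 := by
    rw [h2] at h1
    nlinarith [mul_self_nonneg (v i).im]
  exact hi (Complex.ext (by simpa using h2) (by simpa using h3))

theorem re_le {v : ι → ℂ} (hv : IsUnitVec v) (i : ι) : (v i).re ≤ 1 := by
  have h1 := normSq_le_one hv i
  rw [Complex.normSq_apply] at h1
  nlinarith [mul_self_nonneg (v i).im]

theorem normSq_pos (i : ι) {v : ι → ℂ} (hv : IsUnitVec v) (hi : v i ≠ -1) (s : unitInterval) :
    0 < ∑ k, Complex.normSq (seg i v s k) := by
  rw [normSq_seg i hv]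
  have h1 := re_gt hv i hi
  have h2 := s.2.1
  have h3 := s.2.2
  have e : (1 - (s : ℝ)) ^ 2 + (s : ℝ) ^ 2 + 2 * s * (1 - s) * (v i).re =
      (1 - 2 * (s : ℝ)) ^ 2 + 2 * (s * (1 - s) * (1 + (v i).re)) := by ring
  rw [e]
  rcases eq_or_ne (s : ℝ) (1 / 2) with hs | hs
  · rw [hs]
    have : 0 < 1 + (v i).re := by linarith
    nlinarith
  · have h4 : 0 < (1 - 2 * (s : ℝ)) ^ 2 := by
      refine lt_of_le_of_ne (sq_nonneg _) (Ne.symm ?_)
      intro h
      apply hs
      have := pow_eq_zero_iff (two_ne_zero) |>.1 h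
      linarith
    have h5 : 0 ≤ (s : ℝ) * (1 - s) * (1 + (v i).re) :=
      mul_nonneg (mul_nonneg h2 (by linarith)) (by linarith)
    linarith

/-- The normalised segment. -/
noncomputable def nseg (i : ι) (v : ι → ℂ) (s : ℝ) : ι → ℂ := fun k =>
  ((Real.sqrt (∑ k, Complex.normSq (seg i v s k)))⁻¹ : ℝ) * seg i v s k

theorem isUnitVec_nseg (i : ι) {v : ι → ℂ} (hv : IsUnitVec v) (hi : v i ≠ -1)
    (s : unitInterval) : IsUnitVec (nseg i v s) := by
  have h := normSq_pos i hv hi s
  rw [isUnitVec_iff]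
  simp only [nseg, Complex.normSq_mul, Complex.normSq_ofReal]
  rw [← Finset.mul_sum, ← mul_inv, Real.mul_self_sqrt h.le]
  exact inv_mul_cancel₀ h.ne'

theorem nseg_ne (i : ι) {v : ι → ℂ} (hv : IsUnitVec v) (hi : v i ≠ -1)
    (s : unitInterval) : nseg i v s i ≠ -1 := by
  have h := normSq_pos i hv hi s
  set N := Real.sqrt (∑ k, Complex.normSq (seg i v s k)) with hN
  have hN0 : 0 < N := Real.sqrt_pos.2 h
  have hN2 : N ^ 2 = (1 - (s : ℝ)) ^ 2 + (s : ℝ) ^ 2 + 2 * s * (1 - s) * (v i).re := by
    rw [hN, Real.sq_sqrt h.le, normSq_seg i hv]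
  intro hcon
  have h1 : (nseg i v s i).re = -1 := by rw [hcon]; simp
  have h2 : (nseg i v s i).re = N⁻¹ * ((1 - s) * (v i).re + s) := by
    have e : nseg i v s i = ((N⁻¹ : ℝ) : ℂ) * seg i v s i := rfl
    rw [e, Complex.re_ofReal_mul]
    simp [seg]
  rw [h2] at h1
  have h3 : (1 - (s : ℝ)) * (v i).re + s = -N := by
    field_simp at h1
    linarith
  have h4 : (1 - (s : ℝ)) ^ 2 * (1 - (v i).re ^ 2) = 0 := by
    have : N ^ 2 = ((1 - (s : ℝ)) * (v i).re + s) ^ 2 := by rw [h3]; ring
    rw [hN2] at this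
    nlinarith
  have h5 := re_gt hv i hi
  have h6 := re_le hv i
  rcases mul_eq_zero.1 h4 with h7 | h7
  · have : (s : ℝ) = 1 := by
      have := pow_eq_zero_iff (two_ne_zero) |>.1 h7
      linarith
    rw [this] at h3
    linarith
  · have h8 : (1 - (v i).re) * (1 + (v i).re) = 0 := by linarith
    rcases mul_eq_zero.1 h8 with h9 | h9
    · have : (v i).re = 1 := by linarith
      rw [this] at h3
      linarith
    · linarith

theorem nseg_zero (i : ι) {v : ι → ℂ} (hv : IsUnitVec v) : nseg i v (0 : unitInterval) = v := by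
  have h : ∑ k, Complex.normSq (seg i v (0 : unitInterval) k) = 1 := by
    rw [normSq_seg i hv]
    simp
  funext k
  rw [nseg, h]
  simp [seg]

theorem isUnitVec_single (i : ι) : IsUnitVec (Pi.single i (1 : ℂ) : ι → ℂ) := by
  simp [IsUnitVec, Pi.single_apply]

theorem nseg_one (i : ι) {v : ι → ℂ} (hv : IsUnitVec v) :
    nseg i v (1 : unitInterval) = Pi.single i 1 := by
  have h : ∑ k, Complex.normSq (seg i v (1 : unitInterval) k) = 1 := by
    rw [normSq_seg i hv]
    simp
  funext k
  rw [nseg, h]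
  simp [seg]

theorem nseg_single (i : ι) (s : unitInterval) :
    nseg i (Pi.single i (1 : ℂ)) s = Pi.single i 1 := by
  have h : ∑ k, Complex.normSq (seg i (Pi.single i (1 : ℂ)) s k) = 1 := by
    rw [normSq_seg i (isUnitVec_single i)]
    simp
    ring
  funext k
  rw [nseg, h]
  simp [seg]
  ring

end RotLoop

open RotLoop in
theorem rot_loop (i : ι) (v : unitInterval → ι → ℂ) (hc : Continuous v)
    (hv : ∀ t, IsUnitVec (v t)) (h0 : v 0 = Pi.single i 1) (h1 : v 1 = Pi.single i 1)
    (hi : ∀ t, v t i ≠ -1) :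
    ∃ g : Lp ι, (∀ t, val g t = rot i (v t)) ∧ Joined g 1 := by
  have hcn : Continuous fun x : unitInterval × unitInterval => nseg i (v x.2) x.1 := by
    refine continuous_pi fun k => ?_
    have hseg : ∀ k, Continuous fun x : unitInterval × unitInterval => seg i (v x.2) x.1 k := by
      intro k
      have h2 : Continuous fun x : unitInterval × unitInterval => v x.2 k :=
        (continuous_apply k).comp (hc.comp continuous_snd)
      have h3 : Continuous fun x : unitInterval × unitInterval => ((x.1 : ℝ)) :=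
        continuous_subtype_val.comp continuous_fst
      unfold seg
      exact ((Complex.continuous_ofReal.comp (continuous_const.sub h3)).mul h2).add
        ((Complex.continuous_ofReal.comp h3).mul continuous_const)
    unfold nseg
    refine (Complex.continuous_ofReal.comp (Continuous.inv₀ ?_ ?_)).mul (hseg k)
    · exact Real.continuous_sqrt.comp (continuous_finsetSum _ fun k _ =>
        Complex.continuous_normSq.comp (hseg k))
    · intro x
      exact (Real.sqrt_pos.2 (normSq_pos i (hv x.2) (hi x.2) x.1)).ne'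
  have hcont : Continuous fun x : unitInterval × unitInterval => rot i (nseg i (v x.2) x.1) :=
    (continuousOn_rot i).comp_continuous hcn fun x => nseg_ne i (hv x.2) (hi x.2) x.1
  let F : C(unitInterval × unitInterval, Matrix ι ι ℂ) := ⟨_, hcont⟩
  have hF : ∀ x, F x ∈ Matrix.unitaryGroup ι ℂ := fun x =>
    rot_unitary i (isUnitVec_nseg i (hv x.2) (hi x.2) x.1) (nseg_ne i (hv x.2) (hi x.2) x.1)
  have hF0 : ∀ s, F (s, 0) = 1 := by
    intro s
    show rot i (nseg i (v 0) s) = 1
    rw [h0, nseg_single, rot_single]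
  have hF1 : ∀ s, F (s, 1) = 1 := by
    intro s
    show rot i (nseg i (v 1) s) = 1
    rw [h1, nseg_single, rot_single]
  obtain ⟨g, hg⟩ := exists_lp (fun t => F (0, t)) (F.continuous.comp (by fun_prop))
    (fun t => hF _) (hF0 0) (hF1 0)
  refine ⟨g, fun t => ?_, joined_of_htp F hF hF0 hF1 g 1 hg fun t => ?_⟩
  · rw [hg]
    show rot i (nseg i (v t) (0 : unitInterval)) = rot i (v t)
    rw [nseg_zero i (hv t)]
  · show (1 : Matrix ι ι ℂ) = rot i (nseg i (v t) (1 : unitInterval))
    rw [nseg_one i (hv t), rot_single]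

end Vale.Agent.P095.UZ
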