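import Vale.Agent.P095.UZ.Loops
import Vale.Agent.P095.UZ.Avoid
import Vale.Agent.P095.UZ.Rot
import Vale.Agent.P095.UZ.RotLoop

/-!
# P095 [UZ], row U4: one more fixed vector
-/

open Filter Topology unitInterval
open scoped ComplexOrder Kronecker

namespace Vale.Agent.P095.UZ

variable {ι : Type*} [Fintype ι] [DecidableEq ι]

namespace Step

theorem star_mul_col {R G : Matrix ι ι ℂ} (hR : R ∈ Matrix.unitaryGroup ι ℂ) {k : ι}
    (hGk : ∀ l, G l k = R l k) (l : ι) : (star R * G) l k = (1 : Matrix ι ι ℂ) l k := by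
  have h1 : star R * R = 1 := (Matrix.mem_unitaryGroup_iff').1 hR
  rw [← h1, Matrix.mul_apply, Matrix.mul_apply]
  exact Finset.sum_congr rfl fun m _ => by rw [hGk m]

theorem zero_entry {G : Matrix ι ι ℂ} (hG : G ∈ Matrix.unitaryGroup ι ℂ) {k i : ι} (hki : k ≠ i)
    (hGk : ∀ l, G l k = (1 : Matrix ι ι ℂ) l k) : G k i = 0 := by
  have h1 : star G * G = 1 := (Matrix.mem_unitaryGroup_iff').1 hG
  have h2 : (star G * G) k i = 0 := by rw [h1, Matrix.one_apply_ne hki]
  rw [Matrix.mul_apply, Finset.sum_eq_single k] at h2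
  · rw [Matrix.star_apply, hGk k, Matrix.one_apply_eq, star_one, one_mul] at h2
    exact h2
  · intro l _ hl
    rw [Matrix.star_apply, hGk l, Matrix.one_apply_ne hl, star_zero, zero_mul]
  · intro h
    exact absurd (Finset.mem_univ _) h

theorem unit_col {G : Matrix ι ι ℂ} (hG : G ∈ Matrix.unitaryGroup ι ℂ) (i : ι) :
    IsUnitVec fun k => G k i := by
  have h1 : star G * G = 1 := (Matrix.mem_unitaryGroup_iff').1 hG
  have h2 : (star G * G) i i = 1 := by rw [h1, Matrix.one_apply_eq]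
  rw [Matrix.mul_apply] at h2
  exact h2

end Step

open Step in
/-- every loop is homotopic to a loop fixing `e_i`, keeping the vectors fixed before -/
theorem exists_fix (S : Finset ι) (i j : ι) (hi : i ∉ S) (hj : j ∉ S) (hij : i ≠ j) (g : Lp ι)
    (hg : ∀ k ∈ S, ∀ t l, val g t l k = (1 : Matrix ι ι ℂ) l k) :
    ∃ h : Lp ι, Joined g h ∧
      ∀ k ∈ insert i S, ∀ t l, val h t l k = (1 : Matrix ι ι ℂ) l k := by
  have hval1 : ∀ (g : Lp ι), val g 0 = 1 ∧ val g 1 = 1 := by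
    intro g
    constructor
    · show ((g.1 0 : Matrix.unitaryGroup ι ℂ) : Matrix ι ι ℂ) = 1
      rw [g.2.1]
      rfl
    · show ((g.1 1 : Matrix.unitaryGroup ι ℂ) : Matrix ι ι ℂ) = 1
      rw [g.2.2]
      rfl
  have hcol : ∀ (g : Lp ι), Continuous fun t => fun k => val g t k i := by
    intro g
    exact continuous_pi fun k => (continuous_apply i).comp ((continuous_apply k).comp
      (continuous_val g))
  have hsingle : ∀ {G : Matrix ι ι ℂ}, G = 1 → (fun k => G k i) = Pi.single i 1 := by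
    rintro G rfl
    ext k
    rw [Pi.single_apply, Matrix.one_apply]
  have hne : ∀ k ∈ S, k ≠ i := fun k hk h => hi (h ▸ hk)
  have hnj : ∀ k ∈ S, k ≠ j := fun k hk h => hj (h ▸ hk)
  obtain ⟨v', hv'c, hv'u, hv'0, hv'1, hv'i, hv'v, hv'z⟩ := exists_avoid hij
    (fun t k => val g t k i) (hcol g) (fun t => unit_col (val_unitary g t) i)
    (hsingle (hval1 g).1) (hsingle (hval1 g).2)
  obtain ⟨r₁, hr₁, hj₁⟩ := rot_loop i v' hv'c hv'u hv'0 hv'1 hv'i
  have hv'S : ∀ k ∈ S, ∀ t, v' t k = 0 := fun k hk t =>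
    hv'z t k (hne k hk) (hnj k hk) (zero_entry (val_unitary g t) (hne k hk) (hg k hk t))
  -- first correction
  have hg₁ : ∀ t, val (r₁⁻¹ * g) t = star (rot i (v' t)) * val g t := by
    intro t
    rw [val_mul, val_inv, hr₁]
  have hg₁S : ∀ k ∈ S, ∀ t l, val (r₁⁻¹ * g) t l k = (1 : Matrix ι ι ℂ) l k := by
    intro k hk t l
    rw [hg₁]
    refine star_mul_col (rot_unitary i (hv'u t) (hv'i t)) (fun m => ?_) l
    rw [hg k hk t m, rot_col_of_eq_zero i k m (hne k hk) (hv'S k hk t)]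
  have hg₁i : ∀ t, val (r₁⁻¹ * g) t i i ≠ -1 := by
    intro t
    rw [hg₁, Matrix.mul_apply]
    have e : ∑ k, (star (rot i (v' t))) i k * val g t k i =
        ∑ k, star (v' t k) * val g t k i := by
      refine Finset.sum_congr rfl fun k _ => ?_
      rw [Matrix.star_apply, rot_col i (hv'u t) (hv'i t)]
    rw [e]
    exact hv'v t
  obtain ⟨r₂, hr₂, hj₂⟩ := rot_loop i (fun t k => val (r₁⁻¹ * g) t k i) (hcol _)
    (fun t => unit_col (val_unitary _ t) i) (hsingle (hval1 _).1) (hsingle (hval1 _).2) hg₁i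
  have hh : ∀ t, val (r₂⁻¹ * (r₁⁻¹ * g)) t =
      star (rot i fun k => val (r₁⁻¹ * g) t k i) * val (r₁⁻¹ * g) t := by
    intro t
    rw [val_mul r₂⁻¹, val_inv, hr₂]
  refine ⟨r₂⁻¹ * (r₁⁻¹ * g), ?_, ?_⟩
  · have : ContinuousMul (Lp ι) := (Lp ι).toSubmonoid.continuousMul
    have hinv : ∀ r : Lp ι, Joined r 1 → Joined 1 r⁻¹ := by
      intro r hr
      have := (Joined.refl r⁻¹).mul hr
      rwa [inv_mul_cancel, mul_one] at this
    have a1 : Joined (1 * g) (r₁⁻¹ * g) := (hinv _ hj₁).mul (Joined.refl g)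
    have a2 : Joined (1 * (r₁⁻¹ * g)) (r₂⁻¹ * (r₁⁻¹ * g)) := (hinv _ hj₂).mul (Joined.refl _)
    rw [one_mul] at a1 a2
    exact a1.trans a2
  · intro k hk t l
    rw [hh]
    have hu : rot i (fun k => val (r₁⁻¹ * g) t k i) ∈ Matrix.unitaryGroup ι ℂ :=
      rot_unitary i (unit_col (val_unitary _ t) i) (hg₁i t)
    rcases Finset.mem_insert.1 hk with rfl | hk
    · refine star_mul_col hu (fun m => ?_) l
      rw [rot_col k (unit_col (val_unitary _ t) k) (hg₁i t)]
    · refine star_mul_col hu (fun m => ?_) l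
      rw [hg₁S k hk t m]
      exact (rot_col_of_eq_zero i k m (hne k hk)
        (zero_entry (i := i) (val_unitary _ t) (hne k hk) (hg₁S k hk t))).symm

end Vale.Agent.P095.UZ
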