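import Vale.Agent.P095.UZ.Loops

/-!
# P095 [UZ], row U6: the basic loops in different coordinates are homotopic
-/

open Filter Topology unitInterval
open scoped ComplexOrder Kronecker

namespace Vale.Agent.P095.UZ

variable {ι : Type*} [Fintype ι] [DecidableEq ι]

/-- the unit vector between `e_i` and `e_j` -/
noncomputable def swV (i j : ι) (s : ℝ) : ι → ℂ :=
  ((Real.cos (Real.pi / 2 * s) : ℝ) : ℂ) • Pi.single i 1 +
    ((Real.sin (Real.pi / 2 * s) : ℝ) : ℂ) • Pi.single j 1

omit [Fintype ι] in
theorem swV_apply {i j : ι} (s : ℝ) (k : ι) : swV i j s k =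
    (if k = i then ((Real.cos (Real.pi / 2 * s) : ℝ) : ℂ) else 0) +
      (if k = j then ((Real.sin (Real.pi / 2 * s) : ℝ) : ℂ) else 0) := by
  simp [swV, Pi.single_apply]

omit [Fintype ι] in
theorem swV_star {i j : ι} (s : ℝ) : star (swV i j s) = swV i j s := by
  funext k
  rw [Pi.star_apply, swV_apply, star_add]
  congr 1 <;> split_ifs <;> simp [Complex.conj_ofReal, -Complex.ofReal_cos,
    -Complex.ofReal_sin]

theorem swV_dot {i j : ι} (hij : i ≠ j) (s : ℝ) : swV i j s ⬝ᵥ swV i j s = 1 := by
  have h : swV i j s ⬝ᵥ swV i j s =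
      ((Real.cos (Real.pi / 2 * s) : ℝ) : ℂ) * swV i j s i +
        ((Real.sin (Real.pi / 2 * s) : ℝ) : ℂ) * swV i j s j := by
    conv_lhs => rw [show swV i j s = ((Real.cos (Real.pi / 2 * s) : ℝ) : ℂ) • Pi.single i 1 +
      ((Real.sin (Real.pi / 2 * s) : ℝ) : ℂ) • Pi.single j 1 from rfl]
    rw [add_dotProduct, smul_dotProduct, smul_dotProduct, single_dotProduct, single_dotProduct]
    simp [swV, Pi.single_apply]
  rw [h, swV_apply, swV_apply]
  simp only [if_true, hij, hij.symm, if_false, add_zero, zero_add]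
  rw [← Complex.ofReal_mul, ← Complex.ofReal_mul, ← Complex.ofReal_add, ← pow_two, ← pow_two,
    Real.cos_sq_add_sin_sq, Complex.ofReal_one]

/-- the projection onto the line of `swV` -/
noncomputable def swP (i j : ι) (s : ℝ) : Matrix ι ι ℂ :=
  Matrix.vecMulVec (swV i j s) (swV i j s)

omit [Fintype ι] in
theorem swP_star (i j : ι) (s : ℝ) : star (swP i j s) = swP i j s := by
  ext k l
  have h := swV_star (i := i) (j := j) s
  have hk : ∀ k, star (swV i j s k) = swV i j s k := fun k => by
    conv_rhs => rw [← h]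
    rfl
  rw [Matrix.star_apply, swP, Matrix.vecMulVec_apply, Matrix.vecMulVec_apply, star_mul, hk, hk]

theorem swP_mul {i j : ι} (hij : i ≠ j) (s : ℝ) : swP i j s * swP i j s = swP i j s := by
  rw [swP, Matrix.vecMulVec_mul_vecMulVec, swV_dot hij]
  simp

/-- the homotopy -/
noncomputable def swF (i j : ι) (s t : ℝ) : Matrix ι ι ℂ :=
  1 + (Complex.exp (2 * Real.pi * Complex.I * t) - 1) • swP i j s

theorem swF_unitary {i j : ι} (hij : i ≠ j) (s t : ℝ) :
    swF i j s t ∈ Matrix.unitaryGroup ι ℂ := by
  have hc : star (Complex.exp (2 * Real.pi * Complex.I * t)) *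
      Complex.exp (2 * Real.pi * Complex.I * t) = 1 := by
    rw [Complex.star_def, ← Complex.exp_conj, ← Complex.exp_add]
    have h2 : (starRingEnd ℂ) 2 = 2 := Complex.conj_ofNat 2
    simp [h2]
  have hP := swP_mul hij s
  have hS := swP_star i j s
  rw [Matrix.mem_unitaryGroup_iff', swF]
  set c := Complex.exp (2 * Real.pi * Complex.I * t) with hcdef
  rw [star_add, star_one, star_smul, hS, add_mul, one_mul, smul_mul_assoc, mul_add, mul_one,
    mul_smul_comm, hP]
  have : star (c - 1) * (c - 1) = 2 - c - star c := by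
    rw [star_sub, star_one, sub_mul, mul_sub, hc]
    ring
  rw [smul_add, smul_smul, this, star_sub, star_one]
  module

theorem joined_swap (i j : ι) (z w : Lp ι) (hz : ∀ t : unitInterval, val z t = zmat {i} t)
    (hw : ∀ t : unitInterval, val w t = zmat {j} t) : Joined z w := by
  by_cases hij : i = j
  · subst hij
    have : z = w := lp_ext fun t => by rw [hz, hw]
    rw [this]
  · refine joined_of_htp ⟨fun x => swF i j x.1 x.2, ?_⟩ (fun x => swF_unitary hij _ _) ?_ ?_ z w
      ?_ ?_
    · unfold swF swP swV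
      fun_prop
    · intro s
      simp [swF]
    · intro s
      change swF i j s ((1 : unitInterval) : ℝ) = 1
      simp [swF, Complex.exp_two_pi_mul_I]
    · intro t
      rw [hz]
      change _ = swF i j ((0 : unitInterval) : ℝ) t
      ext k l
      simp only [zmat, swF, swP, Matrix.diagonal_apply, Matrix.add_apply, Matrix.smul_apply,
        Matrix.vecMulVec_apply, swV_apply, Matrix.one_apply, Finset.mem_singleton]
      by_cases h1 : k = l <;> by_cases h2 : k = i <;> by_cases h3 : l = i <;> simp_all
    · intro t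
      rw [hw]
      change _ = swF i j ((1 : unitInterval) : ℝ) t
      ext k l
      simp only [zmat, swF, swP, Matrix.diagonal_apply, Matrix.add_apply, Matrix.smul_apply,
        Matrix.vecMulVec_apply, swV_apply, Matrix.one_apply, Finset.mem_singleton]
      by_cases h1 : k = l <;> by_cases h2 : k = j <;> by_cases h3 : l = j <;> simp_all

end Vale.Agent.P095.UZ
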