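import Vale.Agent.P095.UZ.Loops
import Vale.Agent.P095.UZ.Step
import Vale.Agent.P095.UZ.Scalar
import Vale.Agent.P095.UZ.Swap

/-!
# P095 [UZ]: every based loop in `U(n)` is homotopic to a power of the basic loop
-/

open Filter Topology unitInterval
open scoped ComplexOrder Kronecker

namespace Vale.Agent.P095.UZ

variable {ι : Type*} [Fintype ι] [DecidableEq ι]

/-- all coordinates of `S` can be removed -/
theorem exists_fix_all (i : ι) (g : Lp ι) (S : Finset ι) : i ∉ S → ∃ h : Lp ι, Joined g h ∧
    ∀ k ∈ S, ∀ t l, val h t l k = (1 : Matrix ι ι ℂ) l k := by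
  induction S using Finset.induction_on with
  | empty => exact fun _ => ⟨g, Joined.refl g, by simp⟩
  | insert a S ha ih =>
    intro hi
    rw [Finset.mem_insert, not_or] at hi
    obtain ⟨h, h1, h2⟩ := ih hi.2
    obtain ⟨h', h3, h4⟩ := exists_fix S a i ha hi.2 (fun h => hi.1 h.symm) h h2
    exact ⟨h', h1.trans h3, h4⟩

/-- every based loop is homotopic to a power of the basic loop -/
theorem loop_class (i : ι) (z : Lp ι) (hz : ∀ t : unitInterval, val z t = zmat {i} t)
    (g : Lp ι) : ∃ n : ℤ, Joined g (z ^ n) := by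
  obtain ⟨h, h1, h2⟩ := exists_fix_all i g (Finset.univ.erase i) (by simp)
  obtain ⟨z', n, h3, h4⟩ := scalar_loop i h (fun k hk => h2 k (by simp [hk]))
  have : z' = z := lp_ext (fun t => by rw [h3, hz])
  rw [this] at h4
  exact ⟨n, h1.trans h4⟩

theorem zmat_insert {S : Finset ι} {a : ι} (ha : a ∉ S) (t : ℝ) :
    zmat (insert a S) t = zmat {a} t * zmat S t := by
  unfold zmat
  rw [Matrix.diagonal_mul_diagonal]
  congr 1
  funext k
  by_cases h : k = a
  · subst h
    simp [ha]
  · simp [h]

omit [Fintype ι] in
theorem zmat_empty (t : ℝ) : zmat (∅ : Finset ι) t = 1 := by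
  unfold zmat
  simp

omit [Fintype ι] in
theorem zmat_zero (S : Finset ι) : zmat S 0 = 1 := by
  unfold zmat
  simp

omit [Fintype ι] in
theorem zmat_one (S : Finset ι) : zmat S 1 = 1 := by
  unfold zmat
  simp [Complex.exp_two_pi_mul_I]

omit [Fintype ι] in
theorem continuous_zmat (S : Finset ι) : Continuous (fun t : unitInterval => zmat S (t : ℝ)) := by
  unfold zmat
  refine Continuous.matrix_diagonal (continuous_pi fun k => ?_)
  split_ifs
  · fun_prop
  · exact continuous_const

theorem zmat_unitary (S : Finset ι) (t : ℝ) : zmat S t ∈ Matrix.unitaryGroup ι ℂ := by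
  rw [Matrix.mem_unitaryGroup_iff]
  unfold zmat
  rw [Matrix.star_eq_conjTranspose, Matrix.diagonal_conjTranspose, Matrix.diagonal_mul_diagonal]
  rw [← Matrix.diagonal_one]
  congr 1
  funext k
  by_cases h : k ∈ S
  · simp only [h, if_true, Pi.star_apply]
    rw [Complex.star_def, ← Complex.exp_conj, ← Complex.exp_add]
    simp only [map_mul, Complex.conj_I, Complex.conj_ofReal, map_ofNat]
    ring_nf
    exact Complex.exp_zero
  · simp [h]

theorem exists_zmat (S : Finset ι) :
    ∃ w : Lp ι, ∀ t : unitInterval, val w t = zmat S (t : ℝ) :=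
  exists_lp _ (continuous_zmat S) (fun t => zmat_unitary S t) (by simp [zmat_zero])
    (by simp [zmat_one])

/-- multiplication of based loops is continuous -/
theorem continuousMul_lp : ContinuousMul (Lp ι) := (Lp ι).toSubmonoid.continuousMul

/-- the loop around all coordinates of `S` -/
theorem joined_zmat (S : Finset ι) (i : ι) (z w : Lp ι)
    (hz : ∀ t : unitInterval, val z t = zmat {i} t)
    (hw : ∀ t : unitInterval, val w t = zmat S t) : Joined w (z ^ S.card) := by
  induction S using Finset.induction_on generalizing w with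
  | empty =>
    have : w = 1 := lp_ext (fun t => by
      rw [hw, zmat_empty]
      rfl)
    rw [this, Finset.card_empty, pow_zero]
  | insert a S ha ih =>
    obtain ⟨y, hy⟩ := exists_zmat S
    obtain ⟨x, hx⟩ := exists_zmat {a}
    have h1 : w = x * y := lp_ext (fun t => by rw [hw, val_mul, hx, hy, zmat_insert ha])
    rw [h1, Finset.card_insert_of_notMem ha, pow_succ']
    have : ContinuousMul (Lp ι) := continuousMul_lp
    exact (joined_swap a i x z hx hz).mul (ih y hy)

end Vale.Agent.P095.UZ
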