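import Vale.Agent.P095.UZ.MatExp
import Vale.Agent.P095.UZ.LoopClass

/-!
# P095 [UZ]: the unitary group of a prime dimension drop algebra is path connected (row U8)
-/

open Filter Topology unitInterval
open scoped ComplexOrder Kronecker Matrix.Norms.L2Operator

namespace Vale.Agent.P095.UZ

open Vale.Agent.P101

variable {ι : Type*} [Fintype ι] [DecidableEq ι]

namespace DDrop

theorem exists_exp_sub {A : Type*} [CStarAlgebra A] (S : StarSubalgebra ℂ A)
    (hS : IsClosed (S : Set A)) (H : A) (hH : H ∈ S) (hs : star H = H) :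
    ∃ E : unitary S, ((E : S) : A) = NormedSpace.exp (Complex.I • H) ∧ Joined 1 E := by
  let h : selfAdjoint S := ⟨⟨H, hH⟩, selfAdjoint.mem_iff.2 (Subtype.ext hs)⟩
  refine ⟨selfAdjoint.expUnitary h, ?_, selfAdjoint.joined_one_expUnitary h⟩
  let _ : NormedAlgebra ℚ S := NormedAlgebra.restrictScalars ℚ ℂ S
  let _ : NormedAlgebra ℚ A := NormedAlgebra.restrictScalars ℚ ℂ A
  exact NormedSpace.map_exp S.subtype continuous_subtype_val (Complex.I • (h : S))

section DD

variable {p q : ℕ}

/-- exponentials in the dimension drop algebra -/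
theorem exists_expD (H : C(unitInterval, Matrix (Fin p × Fin q) (Fin p × Fin q) ℂ))
    (hH : H ∈ DimDrop p q) (hs : ∀ t, star (H t) = H t) :
    ∃ E : unitary (DimDrop p q),
      (∀ t, (E : DimDrop p q).1 t = NormedSpace.exp (Complex.I • H t)) ∧ Joined 1 E := by
  have hH1 : star H = H := by
    ext1 t
    exact hs t
  obtain ⟨E, hE, hj⟩ := exists_exp_sub (DimDrop p q) (isClosed_dimDrop p q) H hH hH1
  refine ⟨E, fun t => ?_, hj⟩
  let ev : C(unitInterval, Matrix (Fin p × Fin q) (Fin p × Fin q) ℂ) →+*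
      Matrix (Fin p × Fin q) (Fin p × Fin q) ℂ :=
    { toFun := fun f => f t
      map_one' := rfl
      map_mul' := fun _ _ => rfl
      map_zero' := rfl
      map_add' := fun _ _ => rfl }
  have hev : Continuous ev := continuous_eval_const t
  let _ : NormedAlgebra ℚ C(unitInterval, Matrix (Fin p × Fin q) (Fin p × Fin q) ℂ) :=
    NormedAlgebra.restrictScalars ℚ ℂ _
  let _ : NormedAlgebra ℚ (Matrix (Fin p × Fin q) (Fin p × Fin q) ℂ) :=
    NormedAlgebra.restrictScalars ℚ ℂ _
  have h1 := NormedSpace.map_exp ev hev (Complex.I • H)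
  have h2 : (E : DimDrop p q).1 t = ev (NormedSpace.exp (Complex.I • H)) :=
    congrArg (fun f : C(unitInterval, Matrix (Fin p × Fin q) (Fin p × Fin q) ℂ) => f t) hE
  rw [h2]
  exact h1

/-- based loops as unitaries of the dimension drop algebra -/
noncomputable def toD (g : Lp (Fin p × Fin q)) : unitary (DimDrop p q) :=
  ⟨⟨⟨fun t => val g t, (continuous_subtype_val.comp g.1.continuous)⟩,
    ⟨⟨1, by
      show val g 0 = _
      rw [Matrix.one_kronecker_one]
      show (g.1 0).1 = 1
      rw [g.2.1]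
      rfl⟩,
    ⟨1, by
      show val g 1 = _
      rw [Matrix.one_kronecker_one]
      show (g.1 1).1 = 1
      rw [g.2.2]
      rfl⟩⟩⟩, by
    rw [Unitary.mem_iff]
    constructor
    · apply Subtype.ext
      ext1 t
      exact (Unitary.mem_iff.1 (g.1 t).2).1
    · apply Subtype.ext
      ext1 t
      exact (Unitary.mem_iff.1 (g.1 t).2).2⟩

theorem toD_apply (g : Lp (Fin p × Fin q)) (t : unitInterval) :
    (toD g : DimDrop p q).1 t = val g t := rfl

theorem unitary_ext {u v : unitary (DimDrop p q)}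
    (h : ∀ t, (u : DimDrop p q).1 t = (v : DimDrop p q).1 t) : u = v :=
  Subtype.ext (Subtype.ext (ContinuousMap.ext h))

theorem continuous_toD : Continuous (toD : Lp (Fin p × Fin q) → unitary (DimDrop p q)) := by
  refine Continuous.subtype_mk (Continuous.subtype_mk ?_ _) _
  let φ : C(Matrix.unitaryGroup (Fin p × Fin q) ℂ, Matrix (Fin p × Fin q) (Fin p × Fin q) ℂ) :=
    ⟨Subtype.val, continuous_subtype_val⟩
  exact (ContinuousMap.continuous_postcomp φ).comp continuous_subtype_val

/-- as a homomorphism -/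
noncomputable def toDHom : Lp (Fin p × Fin q) →* unitary (DimDrop p q) where
  toFun := toD
  map_one' := unitary_ext fun _ => rfl
  map_mul' _ _ := unitary_ext fun _ => rfl


theorem exp_kron_left (A : Matrix (Fin p) (Fin p) ℂ) :
    NormedSpace.exp (A ⊗ₖ (1 : Matrix (Fin q) (Fin q) ℂ)) =
      NormedSpace.exp A ⊗ₖ (1 : Matrix (Fin q) (Fin q) ℂ) := by
  let κ : Matrix (Fin p) (Fin p) ℂ →+* Matrix (Fin p × Fin q) (Fin p × Fin q) ℂ :=
    { toFun := fun x => x ⊗ₖ (1 : Matrix (Fin q) (Fin q) ℂ)
      map_one' := Matrix.one_kronecker_one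
      map_mul' := fun x y => by rw [← Matrix.mul_kronecker_mul, one_mul]
      map_zero' := Matrix.zero_kronecker _
      map_add' := fun x y => Matrix.add_kronecker x y 1 }
  have hκ : Continuous κ := by
    show Continuous fun x : Matrix (Fin p) (Fin p) ℂ => x ⊗ₖ (1 : Matrix (Fin q) (Fin q) ℂ)
    refine continuous_matrix fun i j => ?_
    exact (continuous_id.matrix_elem i.1 j.1).mul continuous_const
  let _ : NormedAlgebra ℚ (Matrix (Fin p) (Fin p) ℂ) := NormedAlgebra.restrictScalars ℚ ℂ _
  let _ : NormedAlgebra ℚ (Matrix (Fin p × Fin q) (Fin p × Fin q) ℂ) :=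
    NormedAlgebra.restrictScalars ℚ ℂ _
  exact (NormedSpace.map_exp κ hκ A).symm

theorem exp_kron_right (A : Matrix (Fin q) (Fin q) ℂ) :
    NormedSpace.exp ((1 : Matrix (Fin p) (Fin p) ℂ) ⊗ₖ A) =
      (1 : Matrix (Fin p) (Fin p) ℂ) ⊗ₖ NormedSpace.exp A := by
  let κ : Matrix (Fin q) (Fin q) ℂ →+* Matrix (Fin p × Fin q) (Fin p × Fin q) ℂ :=
    { toFun := fun x => (1 : Matrix (Fin p) (Fin p) ℂ) ⊗ₖ x
      map_one' := Matrix.one_kronecker_one
      map_mul' := fun x y => by rw [← Matrix.mul_kronecker_mul, one_mul]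
      map_zero' := Matrix.kronecker_zero _
      map_add' := fun x y => Matrix.kronecker_add 1 x y }
  have hκ : Continuous κ := by
    show Continuous fun x : Matrix (Fin q) (Fin q) ℂ => (1 : Matrix (Fin p) (Fin p) ℂ) ⊗ₖ x
    refine continuous_matrix fun i j => ?_
    exact continuous_const.mul (continuous_id.matrix_elem i.2 j.2)
  let _ : NormedAlgebra ℚ (Matrix (Fin q) (Fin q) ℂ) := NormedAlgebra.restrictScalars ℚ ℂ _
  let _ : NormedAlgebra ℚ (Matrix (Fin p × Fin q) (Fin p × Fin q) ℂ) :=
    NormedAlgebra.restrictScalars ℚ ℂ _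
  exact (NormedSpace.map_exp κ hκ A).symm

theorem exp_diag (f : Fin p × Fin q → ℂ) :
    NormedSpace.exp (Complex.I • (Matrix.diagonal f : Matrix (Fin p × Fin q) (Fin p × Fin q) ℂ)) =
      Matrix.diagonal fun k => Complex.exp (Complex.I * f k) := by
  rw [← Matrix.diagonal_smul, Matrix.exp_diagonal]
  congr 1
  funext k
  rw [Pi.coe_exp, Complex.exp_eq_exp_ℂ]
  rfl

end DD

section Grp

variable {Γ : Type*} [Group Γ] [TopologicalSpace Γ] [IsTopologicalGroup Γ]

theorem j_mul {x y : Γ} (hx : Joined 1 x) (hy : Joined 1 y) : Joined 1 (x * y) := by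
  have := hx.mul hy
  rwa [one_mul] at this

theorem j_inv {x : Γ} (hx : Joined 1 x) : Joined 1 x⁻¹ := by
  have := hx.inv
  rwa [inv_one] at this

theorem j_pow {x : Γ} (hx : Joined 1 x) (n : ℕ) : Joined 1 (x ^ n) := by
  induction n with
  | zero => rw [pow_zero]
  | succ n ih => rw [pow_succ]; exact j_mul ih hx

theorem j_zpow {x : Γ} (hx : Joined 1 x) (n : ℤ) : Joined 1 (x ^ n) := by
  obtain ⟨m, rfl | rfl⟩ := n.eq_nat_or_neg
  · rw [zpow_natCast]; exact j_pow hx m
  · rw [zpow_neg, zpow_natCast]; exact j_inv (j_pow hx m)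

theorem j_bezout {x : Γ} {p q : ℕ} (hpq : Nat.Coprime p q) (h1 : Joined 1 (x ^ p))
    (h2 : Joined 1 (x ^ q)) : Joined 1 x := by
  have h3 := j_mul (j_zpow h1 (Nat.gcdA p q)) (j_zpow h2 (Nat.gcdB p q))
  have h4 := Nat.gcd_eq_gcd_ab p q
  rw [hpq.gcd_eq_one] at h4
  have h5 : (x ^ p) ^ (Nat.gcdA p q) * (x ^ q) ^ (Nat.gcdB p q) = x := by
    rw [← zpow_natCast, ← zpow_natCast, ← zpow_mul, ← zpow_mul, ← zpow_add, ← h4]
    simp
  rwa [h5] at h3

end Grp

theorem isTopologicalGroup_sub {A : Type*} [CStarAlgebra A] (S : StarSubalgebra ℂ A)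
    (hS : IsClosed (S : Set A)) : IsTopologicalGroup (unitary S) := inferInstance

theorem isTopologicalGroup_dimDrop (p q : ℕ) : IsTopologicalGroup (unitary (DimDrop p q)) :=
  isTopologicalGroup_sub (DimDrop p q) (isClosed_dimDrop p q)

theorem continuous_zmat (S : Finset ι) : Continuous fun t : unitInterval => zmat S (t : ℝ) := by
  unfold zmat
  refine Continuous.matrix_diagonal (continuous_pi fun k => ?_)
  split_ifs
  · fun_prop
  · exact continuous_const

theorem zmat_unitary (S : Finset ι) (t : ℝ) : zmat S t ∈ Matrix.unitaryGroup ι ℂ := by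
  rw [Matrix.mem_unitaryGroup_iff]
  unfold zmat
  rw [Matrix.star_eq_conjTranspose, Matrix.diagonal_conjTranspose, Matrix.diagonal_mul_diagonal,
    ← Matrix.diagonal_one]
  congr 1
  funext k
  rw [Pi.star_apply]
  split_ifs
  · rw [Complex.star_def, ← Complex.exp_conj, ← Complex.exp_add]
    have : 2 * (Real.pi : ℂ) * Complex.I * (t : ℂ) +
        (starRingEnd ℂ) (2 * (Real.pi : ℂ) * Complex.I * (t : ℂ)) = 0 := by
      have h2 : (starRingEnd ℂ) (2 : ℂ) = 2 := Complex.conj_ofNat 2
      rw [map_mul, map_mul, map_mul, Complex.conj_I, Complex.conj_ofReal, Complex.conj_ofReal, h2]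
      ring
    rw [this, Complex.exp_zero]
  · simp

theorem zmat_zero (S : Finset ι) : zmat S 0 = 1 := by
  unfold zmat
  rw [← Matrix.diagonal_one]
  congr 1
  funext k
  simp

theorem zmat_one (S : Finset ι) : zmat S 1 = 1 := by
  unfold zmat
  rw [← Matrix.diagonal_one]
  congr 1
  funext k
  split_ifs
  · rw [Complex.ofReal_one, mul_one, Complex.exp_two_pi_mul_I]
  · rfl

theorem exists_zloop (S : Finset ι) : ∃ z : Lp ι, ∀ t : unitInterval, val z t = zmat S t :=
  exists_lp _ (continuous_zmat S) (fun t => zmat_unitary S t)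
    (by rw [Set.Icc.coe_zero, zmat_zero]) (by rw [Set.Icc.coe_one, zmat_one])

section Main

variable {p q : ℕ}

/-- the loop around the coordinates `(a, ·)` is an exponential in the dimension drop algebra -/
theorem joined_row (a : Fin p) (w : Lp (Fin p × Fin q)) (S : Finset (Fin p × Fin q))
    (hS : ∀ k, k ∈ S ↔ k.1 = a) (hw : ∀ t : unitInterval, val w t = zmat S t) :
    Joined 1 (toD w) := by
  let f : ℝ → Fin p × Fin q → ℂ := fun t k =>
    if k ∈ S then ((2 * Real.pi * (t - 1) : ℝ) : ℂ) else 0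
  let H : C(unitInterval, Matrix (Fin p × Fin q) (Fin p × Fin q) ℂ) :=
    ⟨fun t => Matrix.diagonal (f t), by
      refine Continuous.matrix_diagonal (continuous_pi fun k => ?_)
      simp only [f]
      split_ifs
      · fun_prop
      · exact continuous_const⟩
  obtain ⟨E, hE, hj⟩ := exists_expD H
    ⟨⟨Matrix.diagonal fun i => if i = a then ((-(2 * Real.pi) : ℝ) : ℂ) else 0, by
      show Matrix.diagonal (f ((0 : unitInterval) : ℝ)) = _
      rw [← Matrix.diagonal_one, Matrix.diagonal_kronecker_diagonal]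
      congr 1
      funext k
      simp only [f, hS]
      split_ifs
      · simp
      · simp⟩,
    ⟨0, by
      show Matrix.diagonal (f ((1 : unitInterval) : ℝ)) = _
      rw [Matrix.kronecker_zero, ← Matrix.diagonal_zero]
      congr 1
      funext k
      simp only [f]
      split_ifs
      · simp
      · rfl⟩⟩
    (fun t => by
      show star (Matrix.diagonal (f t)) = Matrix.diagonal (f t)
      rw [Matrix.star_eq_conjTranspose, Matrix.diagonal_conjTranspose]
      congr 1
      funext k
      simp only [f, Pi.star_apply]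
      split_ifs
      · rw [Complex.star_def, Complex.conj_ofReal]
      · rw [star_zero])
  have h1 : toD w = E := by
    refine unitary_ext fun t => ?_
    rw [toD_apply, hw, hE]
    show zmat S (t : ℝ) = NormedSpace.exp (Complex.I • Matrix.diagonal (f t))
    rw [exp_diag]
    unfold zmat
    congr 1
    funext k
    simp only [f]
    split_ifs
    · have h2 : Complex.I * ((2 * Real.pi * ((t : ℝ) - 1) : ℝ) : ℂ) =
          2 * Real.pi * Complex.I * ((t : ℝ) : ℂ) - 2 * Real.pi * Complex.I := by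
        push_cast
        ring
      rw [h2, Complex.exp_sub, Complex.exp_two_pi_mul_I, div_one]
    · rw [mul_zero, Complex.exp_zero]
  rw [h1]
  exact hj

/-- the loop around the coordinates `(·, b)` is an exponential in the dimension drop algebra -/
theorem joined_column (b : Fin q) (w : Lp (Fin p × Fin q)) (S : Finset (Fin p × Fin q))
    (hS : ∀ k, k ∈ S ↔ k.2 = b) (hw : ∀ t : unitInterval, val w t = zmat S t) :
    Joined 1 (toD w) := by
  let f : ℝ → Fin p × Fin q → ℂ := fun t k =>
    if k ∈ S then ((2 * Real.pi * t : ℝ) : ℂ) else 0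
  let H : C(unitInterval, Matrix (Fin p × Fin q) (Fin p × Fin q) ℂ) :=
    ⟨fun t => Matrix.diagonal (f t), by
      refine Continuous.matrix_diagonal (continuous_pi fun k => ?_)
      simp only [f]
      split_ifs
      · fun_prop
      · exact continuous_const⟩
  obtain ⟨E, hE, hj⟩ := exists_expD H
    ⟨⟨0, by
      show Matrix.diagonal (f ((0 : unitInterval) : ℝ)) = _
      rw [Matrix.zero_kronecker, ← Matrix.diagonal_zero]
      congr 1
      funext k
      simp only [f]
      split_ifs
      · simp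
      · rfl⟩,
    ⟨Matrix.diagonal fun i => if i = b then ((2 * Real.pi : ℝ) : ℂ) else 0, by
      show Matrix.diagonal (f ((1 : unitInterval) : ℝ)) = _
      rw [← Matrix.diagonal_one, Matrix.diagonal_kronecker_diagonal]
      congr 1
      funext k
      simp only [f, hS]
      split_ifs
      · simp
      · simp⟩⟩
    (fun t => by
      show star (Matrix.diagonal (f t)) = Matrix.diagonal (f t)
      rw [Matrix.star_eq_conjTranspose, Matrix.diagonal_conjTranspose]
      congr 1
      funext k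
      simp only [f, Pi.star_apply]
      split_ifs
      · rw [Complex.star_def, Complex.conj_ofReal]
      · rw [star_zero])
  have h1 : toD w = E := by
    refine unitary_ext fun t => ?_
    rw [toD_apply, hw, hE]
    show zmat S (t : ℝ) = NormedSpace.exp (Complex.I • Matrix.diagonal (f t))
    rw [exp_diag]
    unfold zmat
    congr 1
    funext k
    simp only [f]
    split_ifs
    · congr 1
      push_cast
      ring
    · rw [mul_zero, Complex.exp_zero]
  rw [h1]
  exact hj

end Main

end DDrop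

open DDrop in
theorem dimDrop_connected {p q : ℕ} (hp : 0 < p) (hq : 0 < q) (hpq : Nat.Coprime p q)
    (u : unitary (DimDrop p q)) : Joined 1 u := by
  classical
  have htg := isTopologicalGroup_dimDrop p q
  let a : Fin p := ⟨0, hp⟩
  let b : Fin q := ⟨0, hq⟩
  obtain ⟨z, hz⟩ := exists_zloop ({(a, b)} : Finset (Fin p × Fin q))
  -- the basic loop is trivial
  have hz1 : Joined 1 (toDHom z) := by
    have h1 : Joined 1 (toDHom z ^ q) := by
      let S : Finset (Fin p × Fin q) := Finset.univ.filter fun k => k.1 = a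
      obtain ⟨w, hw⟩ := exists_zloop S
      have hS : S.card = q := by
        have : S = ({a} : Finset (Fin p)) ×ˢ (Finset.univ : Finset (Fin q)) := by
          ext ⟨k1, k2⟩
          simp [S, eq_comm]
        rw [this, Finset.card_product, Finset.card_singleton, Finset.card_univ, Fintype.card_fin,
          one_mul]
      have h2 := joined_zmat S (a, b) z w hz hw
      rw [hS] at h2
      have h3 := h2.map continuous_toD
      have h4 : toD (z ^ q) = toDHom z ^ q := map_pow toDHom z q
      rw [h4] at h3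
      exact (joined_row a w S (by simp [S]) hw).trans h3
    have h1' : Joined 1 (toDHom z ^ p) := by
      let S : Finset (Fin p × Fin q) := Finset.univ.filter fun k => k.2 = b
      obtain ⟨w, hw⟩ := exists_zloop S
      have hS : S.card = p := by
        have : S = (Finset.univ : Finset (Fin p)) ×ˢ ({b} : Finset (Fin q)) := by
          ext ⟨k1, k2⟩
          simp [S, eq_comm]
        rw [this, Finset.card_product, Finset.card_singleton, Finset.card_univ, Fintype.card_fin,
          mul_one]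
      have h2 := joined_zmat S (a, b) z w hz hw
      rw [hS] at h2
      have h3 := h2.map continuous_toD
      have h4 : toD (z ^ p) = toDHom z ^ p := map_pow toDHom z p
      rw [h4] at h3
      exact (joined_column b w S (by simp [S]) hw).trans h3
    exact j_bezout hpq h1' h1
  -- the general unitary
  obtain ⟨⟨x, hx⟩, ⟨y, hy⟩⟩ := (u : DimDrop p q).2
  have hu1 : ∀ t, star ((u : DimDrop p q).1 t) * (u : DimDrop p q).1 t = 1 := fun t => by
    have := congrArg (fun f : DimDrop p q => f.1 t) (Unitary.mem_iff.1 u.2).1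
    exact this
  have hu2 : ∀ t, (u : DimDrop p q).1 t * star ((u : DimDrop p q).1 t) = 1 := fun t => by
    have := congrArg (fun f : DimDrop p q => f.1 t) (Unitary.mem_iff.1 u.2).2
    exact this
  have hxu : x ∈ Matrix.unitaryGroup (Fin p) ℂ := by
    rw [Matrix.mem_unitaryGroup_iff']
    have h1 := hu1 0
    rw [hx, Matrix.star_eq_conjTranspose, Matrix.conjTranspose_kronecker, Matrix.conjTranspose_one,
      ← Matrix.mul_kronecker_mul, one_mul] at h1
    ext i j
    have h2 := congrFun (congrFun h1 (i, b)) (j, b)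
    rw [Matrix.kronecker_apply, Matrix.one_apply_eq, mul_one] at h2
    rw [Matrix.star_eq_conjTranspose, h2, Matrix.one_apply, Matrix.one_apply]
    simp
  have hyu : y ∈ Matrix.unitaryGroup (Fin q) ℂ := by
    rw [Matrix.mem_unitaryGroup_iff']
    have h1 := hu1 1
    rw [hy, Matrix.star_eq_conjTranspose, Matrix.conjTranspose_kronecker, Matrix.conjTranspose_one,
      ← Matrix.mul_kronecker_mul, one_mul] at h1
    ext i j
    have h2 := congrFun (congrFun h1 (a, i)) (a, j)
    rw [Matrix.kronecker_apply, Matrix.one_apply_eq, one_mul] at h2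
    rw [Matrix.star_eq_conjTranspose, h2, Matrix.one_apply, Matrix.one_apply]
    simp
  obtain ⟨h, hh, hhx⟩ := exists_exp_eq x hxu
  obtain ⟨k, hk, hky⟩ := exists_exp_eq y hyu
  have hcr : Continuous fun t : unitInterval => (((1 - (t : ℝ)) : ℝ) : ℂ) := by fun_prop
  have hct : Continuous fun t : unitInterval => (((t : ℝ)) : ℂ) := by fun_prop
  let H0 : C(unitInterval, Matrix (Fin p × Fin q) (Fin p × Fin q) ℂ) :=
    ⟨fun t => (((1 - (t : ℝ)) : ℝ) : ℂ) • (h ⊗ₖ (1 : Matrix (Fin q) (Fin q) ℂ)),
      hcr.smul continuous_const⟩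
  let H1 : C(unitInterval, Matrix (Fin p × Fin q) (Fin p × Fin q) ℂ) :=
    ⟨fun t => ((t : ℝ) : ℂ) • ((1 : Matrix (Fin p) (Fin p) ℂ) ⊗ₖ k), hct.smul continuous_const⟩
  have hh' : star (h ⊗ₖ (1 : Matrix (Fin q) (Fin q) ℂ)) = h ⊗ₖ (1 : Matrix (Fin q) (Fin q) ℂ) := by
    rw [Matrix.star_eq_conjTranspose, Matrix.conjTranspose_kronecker, Matrix.conjTranspose_one]
    congr 1
  have hk' : star ((1 : Matrix (Fin p) (Fin p) ℂ) ⊗ₖ k) = (1 : Matrix (Fin p) (Fin p) ℂ) ⊗ₖ k := by
    rw [Matrix.star_eq_conjTranspose, Matrix.conjTranspose_kronecker, Matrix.conjTranspose_one]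
    congr 1
  obtain ⟨E0, hE0, hj0⟩ := exists_expD H0
    ⟨⟨h, by
      show (((1 - ((0 : unitInterval) : ℝ)) : ℝ) : ℂ) • (h ⊗ₖ (1 : Matrix (Fin q) (Fin q) ℂ)) = _
      simp⟩,
    ⟨0, by
      show (((1 - ((1 : unitInterval) : ℝ)) : ℝ) : ℂ) • (h ⊗ₖ (1 : Matrix (Fin q) (Fin q) ℂ)) = _
      simp⟩⟩
    (fun t => by
      show star ((((1 - (t : ℝ)) : ℝ) : ℂ) • (h ⊗ₖ (1 : Matrix (Fin q) (Fin q) ℂ))) = _
      rw [star_smul, hh', Complex.star_def, Complex.conj_ofReal]
      rfl)
  obtain ⟨E1, hE1, hj1⟩ := exists_expD H1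
    ⟨⟨0, by
      show (((0 : unitInterval) : ℝ) : ℂ) • ((1 : Matrix (Fin p) (Fin p) ℂ) ⊗ₖ k) = _
      simp⟩,
    ⟨k, by
      show (((1 : unitInterval) : ℝ) : ℂ) • ((1 : Matrix (Fin p) (Fin p) ℂ) ⊗ₖ k) = _
      simp⟩⟩
    (fun t => by
      show star (((t : ℝ) : ℂ) • ((1 : Matrix (Fin p) (Fin p) ℂ) ⊗ₖ k)) = _
      rw [star_smul, hk', Complex.star_def, Complex.conj_ofReal]
      rfl)
  have e00 : (E0 : DimDrop p q).1 0 = (u : DimDrop p q).1 0 := by
    rw [hE0]
    show NormedSpace.exp (Complex.I • ((((1 - ((0 : unitInterval) : ℝ)) : ℝ) : ℂ) •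
      (h ⊗ₖ (1 : Matrix (Fin q) (Fin q) ℂ)))) = _
    rw [Set.Icc.coe_zero, sub_zero, Complex.ofReal_one, one_smul, ← Matrix.smul_kronecker,
      exp_kron_left, hhx]
    exact hx.symm
  have e01 : (E0 : DimDrop p q).1 1 = 1 := by
    rw [hE0]
    show NormedSpace.exp (Complex.I • ((((1 - ((1 : unitInterval) : ℝ)) : ℝ) : ℂ) •
      (h ⊗ₖ (1 : Matrix (Fin q) (Fin q) ℂ)))) = _
    rw [Set.Icc.coe_one, sub_self, Complex.ofReal_zero, zero_smul, smul_zero,
      NormedSpace.exp_zero]
  have e10 : (E1 : DimDrop p q).1 0 = 1 := by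
    rw [hE1]
    show NormedSpace.exp (Complex.I • ((((0 : unitInterval) : ℝ) : ℂ) •
      ((1 : Matrix (Fin p) (Fin p) ℂ) ⊗ₖ k))) = _
    rw [Set.Icc.coe_zero, Complex.ofReal_zero, zero_smul, smul_zero, NormedSpace.exp_zero]
  have e11 : (E1 : DimDrop p q).1 1 = (u : DimDrop p q).1 1 := by
    rw [hE1]
    show NormedSpace.exp (Complex.I • ((((1 : unitInterval) : ℝ) : ℂ) •
      ((1 : Matrix (Fin p) (Fin p) ℂ) ⊗ₖ k))) = _
    rw [Set.Icc.coe_one, Complex.ofReal_one, one_smul, ← Matrix.kronecker_smul,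
      exp_kron_right, hky]
    exact hy.symm
  have hE0u : ∀ t, star ((E0 : DimDrop p q).1 t) * (E0 : DimDrop p q).1 t = 1 ∧
      (E0 : DimDrop p q).1 t * star ((E0 : DimDrop p q).1 t) = 1 := fun t =>
    ⟨congrArg (fun f : DimDrop p q => f.1 t) (Unitary.mem_iff.1 E0.2).1,
      congrArg (fun f : DimDrop p q => f.1 t) (Unitary.mem_iff.1 E0.2).2⟩
  have hE1u : ∀ t, star ((E1 : DimDrop p q).1 t) * (E1 : DimDrop p q).1 t = 1 ∧
      (E1 : DimDrop p q).1 t * star ((E1 : DimDrop p q).1 t) = 1 := fun t =>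
    ⟨congrArg (fun f : DimDrop p q => f.1 t) (Unitary.mem_iff.1 E1.2).1,
      congrArg (fun f : DimDrop p q => f.1 t) (Unitary.mem_iff.1 E1.2).2⟩
  obtain ⟨g, hg⟩ := exists_lp (ι := Fin p × Fin q)
    (fun t => star ((E0 : DimDrop p q).1 t) * (u : DimDrop p q).1 t *
      star ((E1 : DimDrop p q).1 t))
    ((((E0 : DimDrop p q).1.continuous.star).mul (u : DimDrop p q).1.continuous).mul
      ((E1 : DimDrop p q).1.continuous.star))
    (fun t => by
      rw [Matrix.mem_unitaryGroup_iff]
      rw [star_mul, star_mul, star_star, star_star]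
      calc _ = star ((E0 : DimDrop p q).1 t) * ((u : DimDrop p q).1 t *
            (star ((E1 : DimDrop p q).1 t) * (E1 : DimDrop p q).1 t) *
            star ((u : DimDrop p q).1 t)) * (E0 : DimDrop p q).1 t := by
            simp only [mul_assoc]
        _ = 1 := by rw [(hE1u t).1, mul_one, hu2, mul_one, (hE0u t).1])
    (by rw [e00, e10, star_one, mul_one, hu1]) (by rw [e01, e11, star_one, one_mul, hu2])
  have hdec : u = E0 * toD g * E1 := by
    refine unitary_ext fun t => ?_
    show (u : DimDrop p q).1 t = (E0 : DimDrop p q).1 t * val g t * (E1 : DimDrop p q).1 t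
    rw [hg]
    calc (u : DimDrop p q).1 t = ((E0 : DimDrop p q).1 t * star ((E0 : DimDrop p q).1 t)) *
          (u : DimDrop p q).1 t * (star ((E1 : DimDrop p q).1 t) * (E1 : DimDrop p q).1 t) := by
          rw [(hE0u t).2, (hE1u t).1, one_mul, mul_one]
      _ = _ := by simp only [mul_assoc]
  obtain ⟨n, hn⟩ := loop_class (a, b) z hz g
  have hgj : Joined 1 (toD g) := by
    have h1 := hn.map continuous_toD
    have h2 : toD (z ^ n) = toDHom z ^ n := map_zpow toDHom z n
    rw [h2] at h1
    exact (j_zpow hz1 n).trans h1.symm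
  rw [hdec]
  exact j_mul (j_mul hj0 hgj) hj1

end Vale.Agent.P095.UZ
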