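import Vale.Agent.P095.UZ.Loops

/-!
# P095 [UZ], row U8: the two ends of a unitary of the dimension drop algebra
-/

open Filter Topology unitInterval
open scoped ComplexOrder Kronecker

namespace Vale.Agent.P095.UZ

open Vale.Agent.P101

universe u v

namespace DDU

section Connected

open scoped Matrix.Norms.L2Operator

theorem joined_one_unitaryGroup {n : Type*} [Fintype n] [DecidableEq n]
    (x : Matrix.unitaryGroup n ℂ) : Joined 1 x := by
  have hfin : (spectrum ℂ (x : Matrix n n ℂ)).Finite := Matrix.finite_spectrum _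
  -- a unimodular number outside minus the spectrum
  have hinj : Set.InjOn (fun θ : ℝ => -Complex.exp (θ * Complex.I)) (Set.Ioo 0 1) := by
    intro a ha b hb hab
    have h1 : Complex.exp (a * Complex.I) = Complex.exp (b * Complex.I) := neg_injective hab
    have h2 := Complex.exp_inj_of_neg_pi_lt_of_le_pi (x := a * Complex.I) (y := b * Complex.I)
      (by simp; linarith [ha.1, Real.pi_pos]) (by simp; linarith [ha.2, Real.pi_gt_three])
      (by simp; linarith [hb.1, Real.pi_pos]) (by simp; linarith [hb.2, Real.pi_gt_three]) h1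
    have h3 := congrArg Complex.im h2
    simpa using h3
  have hinf : ((fun θ : ℝ => -Complex.exp (θ * Complex.I)) '' Set.Ioo 0 1).Infinite :=
    (Set.Ioo_infinite zero_lt_one).image hinj
  obtain ⟨_, ⟨θ, -, rfl⟩, hθ⟩ := hinf.exists_notMem_finite hfin
  -- the path of scalars
  let c : ℝ → unitary (Matrix n n ℂ) := fun s => ⟨Complex.exp (s * Complex.I) • 1, by
    rw [Unitary.mem_iff, star_smul, star_one, smul_mul_smul_comm, smul_mul_smul_comm, mul_one,
      ← starRingEnd_apply, ← Complex.exp_conj, ← Complex.exp_add, ← Complex.exp_add]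
    simp⟩
  have hc : Continuous c := Continuous.subtype_mk (by fun_prop) _
  have h1 : Joined 1 (c θ) := by
    refine ⟨⟨⟨fun s => c ((s : ℝ) * θ), hc.comp (by fun_prop)⟩, ?_, ?_⟩⟩
    · apply Subtype.ext
      simp [c]
    · apply Subtype.ext
      simp [c]
  have h2 : Joined (c θ) x := by
    refine Unitary.joined (c θ) x ?_
    have h3 : (x : Matrix n n ℂ) - (c θ : Matrix n n ℂ) =
        Complex.exp (θ * Complex.I) • ((c (-θ) * x : unitary (Matrix n n ℂ)) - 1) := by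
      show (x : Matrix n n ℂ) - Complex.exp (θ * Complex.I) • (1 : Matrix n n ℂ) =
        Complex.exp (θ * Complex.I) •
          ((Complex.exp (((-θ : ℝ) : ℂ) * Complex.I) • (1 : Matrix n n ℂ)) * x - 1)
      rw [smul_sub, smul_mul_assoc, one_mul, smul_smul, ← Complex.exp_add]
      simp
    rw [h3, norm_smul, Complex.norm_exp_ofReal_mul_I, one_mul,
      Unitary.norm_sub_one_lt_two_iff (c (-θ) * x).2]
    intro h4
    apply hθ
    rw [spectrum.mem_iff] at h4 ⊢
    intro h5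
    apply h4
    have h6 : algebraMap ℂ (Matrix n n ℂ) (-1) - ((c (-θ) * x : unitary (Matrix n n ℂ)) : Matrix n n ℂ) =
        Complex.exp (((-θ : ℝ) : ℂ) * Complex.I) • (algebraMap ℂ (Matrix n n ℂ)
          (-Complex.exp (θ * Complex.I)) - (x : Matrix n n ℂ)) := by
      show algebraMap ℂ (Matrix n n ℂ) (-1) -
        (Complex.exp (((-θ : ℝ) : ℂ) * Complex.I) • (1 : Matrix n n ℂ)) * x = _
      rw [smul_sub, smul_mul_assoc, one_mul, Algebra.algebraMap_eq_smul_one,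
        Algebra.algebraMap_eq_smul_one, smul_smul, mul_neg, ← Complex.exp_add]
      simp
    rw [h6]
    exact h5.smul (Units.mk0 (Complex.exp (((-θ : ℝ) : ℂ) * Complex.I)) (Complex.exp_ne_zero _))
  exact h1.trans h2

end Connected

variable {p q : ℕ}

/-- A continuous family of unitary valued functions with the boundary conditions is a path in the
unitary group of the dimension drop algebra. -/
theorem joined_dd (G : C(unitInterval × unitInterval, Matrix (Fin p × Fin q) (Fin p × Fin q) ℂ))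
    (hG : ∀ x, G x ∈ Matrix.unitaryGroup (Fin p × Fin q) ℂ)
    (h0 : ∀ s, ∃ x : Matrix (Fin p) (Fin p) ℂ, G (s, 0) = x ⊗ₖ (1 : Matrix (Fin q) (Fin q) ℂ))
    (h1 : ∀ s, ∃ y : Matrix (Fin q) (Fin q) ℂ, G (s, 1) = (1 : Matrix (Fin p) (Fin p) ℂ) ⊗ₖ y)
    (u v : unitary (DimDrop p q)) (hu : ∀ t, u.1.1 t = G (0, t)) (hv : ∀ t, v.1.1 t = G (1, t)) :
    Joined u v := by
  let γ : unitInterval → unitary (DimDrop p q) := fun s => ⟨⟨G.curry s, ⟨h0 s, h1 s⟩⟩, by
    rw [Unitary.mem_iff]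
    constructor
    · apply Subtype.ext
      ext1 t
      exact (Unitary.mem_iff.1 (hG (s, t))).1
    · apply Subtype.ext
      ext1 t
      exact (Unitary.mem_iff.1 (hG (s, t))).2⟩
  have hγ : Continuous γ := (G.curry.continuous.subtype_mk _).subtype_mk _
  refine ⟨⟨⟨γ, hγ⟩, ?_, ?_⟩⟩
  · apply Subtype.ext
    apply Subtype.ext
    ext1 t
    exact (hu t).symm
  · apply Subtype.ext
    apply Subtype.ext
    ext1 t
    exact (hv t).symm

theorem exists_dd (f : unitInterval → Matrix (Fin p × Fin q) (Fin p × Fin q) ℂ)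
    (hf : Continuous f) (hu : ∀ t, f t ∈ Matrix.unitaryGroup (Fin p × Fin q) ℂ)
    (h0 : ∃ x : Matrix (Fin p) (Fin p) ℂ, f 0 = x ⊗ₖ (1 : Matrix (Fin q) (Fin q) ℂ))
    (h1 : ∃ y : Matrix (Fin q) (Fin q) ℂ, f 1 = (1 : Matrix (Fin p) (Fin p) ℂ) ⊗ₖ y) :
    ∃ u : unitary (DimDrop p q), ∀ t, u.1.1 t = f t :=
  ⟨⟨⟨⟨f, hf⟩, h0, h1⟩, by
    rw [Unitary.mem_iff]
    constructor
    · apply Subtype.ext
      ext1 t
      exact (Unitary.mem_iff.1 (hu t)).1
    · apply Subtype.ext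
      ext1 t
      exact (Unitary.mem_iff.1 (hu t)).2⟩, fun _ => rfl⟩

theorem dd_unitary (u : unitary (DimDrop p q)) (t : unitInterval) :
    u.1.1 t ∈ Matrix.unitaryGroup (Fin p × Fin q) ℂ := by
  have h := Unitary.mem_iff.1 u.2
  rw [Unitary.mem_iff]
  constructor
  · exact congrArg (fun w : DimDrop p q => w.1 t) h.1
  · exact congrArg (fun w : DimDrop p q => w.1 t) h.2

theorem kron_left_unitary (hq : 0 < q) {x : Matrix (Fin p) (Fin p) ℂ}
    (h : x ⊗ₖ (1 : Matrix (Fin q) (Fin q) ℂ) ∈ Matrix.unitaryGroup (Fin p × Fin q) ℂ) :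
    x ∈ Matrix.unitaryGroup (Fin p) ℂ := by
  rw [Matrix.mem_unitaryGroup_iff] at h ⊢
  rw [Matrix.star_eq_conjTranspose, Matrix.conjTranspose_kronecker, Matrix.conjTranspose_one,
    ← Matrix.mul_kronecker_mul, mul_one] at h
  ext i j
  have h1 := congrFun (congrFun h (i, ⟨0, hq⟩)) (j, ⟨0, hq⟩)
  rw [Matrix.kroneckerMap_apply, Matrix.one_apply_eq, mul_one] at h1
  rw [Matrix.star_eq_conjTranspose, h1, Matrix.one_apply, Matrix.one_apply]
  simp [Prod.ext_iff]

theorem kron_right_unitary (hp : 0 < p) {y : Matrix (Fin q) (Fin q) ℂ}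
    (h : (1 : Matrix (Fin p) (Fin p) ℂ) ⊗ₖ y ∈ Matrix.unitaryGroup (Fin p × Fin q) ℂ) :
    y ∈ Matrix.unitaryGroup (Fin q) ℂ := by
  rw [Matrix.mem_unitaryGroup_iff] at h ⊢
  rw [Matrix.star_eq_conjTranspose, Matrix.conjTranspose_kronecker, Matrix.conjTranspose_one,
    ← Matrix.mul_kronecker_mul, mul_one] at h
  ext i j
  have h1 := congrFun (congrFun h (⟨0, hp⟩, i)) (⟨0, hp⟩, j)
  rw [Matrix.kroneckerMap_apply, Matrix.one_apply_eq, one_mul] at h1
  rw [Matrix.star_eq_conjTranspose, h1, Matrix.one_apply, Matrix.one_apply]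
  simp [Prod.ext_iff]

/-- A unitary in the fibre at `0` extends to a unitary joined to `1`, equal to `1` at `1`. -/
theorem exists_left (x : Matrix.unitaryGroup (Fin p) ℂ) :
    ∃ E : unitary (DimDrop p q), Joined 1 E ∧
      E.1.1 0 = (x : Matrix (Fin p) (Fin p) ℂ) ⊗ₖ (1 : Matrix (Fin q) (Fin q) ℂ) ∧
      E.1.1 1 = 1 := by
  obtain ⟨γ⟩ := joined_one_unitaryGroup x
  let G : C(unitInterval × unitInterval, Matrix (Fin p × Fin q) (Fin p × Fin q) ℂ) :=
    ⟨fun z => ((γ (z.1 * unitInterval.symm z.2) : Matrix.unitaryGroup (Fin p) ℂ) :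
      Matrix (Fin p) (Fin p) ℂ) ⊗ₖ (1 : Matrix (Fin q) (Fin q) ℂ), by
      have h1 : Continuous fun z : unitInterval × unitInterval =>
          ((γ (z.1 * unitInterval.symm z.2) : Matrix.unitaryGroup (Fin p) ℂ) :
            Matrix (Fin p) (Fin p) ℂ) :=
        continuous_subtype_val.comp (γ.continuous.comp
          (continuous_fst.mul (unitInterval.continuous_symm.comp continuous_snd)))
      refine continuous_matrix fun i j => ?_
      exact ((h1.matrix_elem i.1 j.1)).mul continuous_const⟩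
  have hG : ∀ z, G z ∈ Matrix.unitaryGroup (Fin p × Fin q) ℂ := fun z =>
    Matrix.kronecker_mem_unitary (γ _).2 (one_mem _)
  obtain ⟨E, hE⟩ := exists_dd (fun t => G (1, t)) (G.continuous.comp (by fun_prop))
    (fun t => hG _) ⟨_, rfl⟩ ⟨1, by
      show ((γ (1 * unitInterval.symm 1) : Matrix.unitaryGroup (Fin p) ℂ) :
        Matrix (Fin p) (Fin p) ℂ) ⊗ₖ (1 : Matrix (Fin q) (Fin q) ℂ) = _
      simp⟩
  refine ⟨E, joined_dd G hG (fun s => ⟨_, rfl⟩) (fun s => ⟨1, ?_⟩) 1 E (fun t => ?_) hE, ?_, ?_⟩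
  · show ((γ (s * unitInterval.symm 1) : Matrix.unitaryGroup (Fin p) ℂ) :
        Matrix (Fin p) (Fin p) ℂ) ⊗ₖ (1 : Matrix (Fin q) (Fin q) ℂ) = _
    simp
  · show (1 : Matrix (Fin p × Fin q) (Fin p × Fin q) ℂ) =
      ((γ (0 * unitInterval.symm t) : Matrix.unitaryGroup (Fin p) ℂ) :
        Matrix (Fin p) (Fin p) ℂ) ⊗ₖ (1 : Matrix (Fin q) (Fin q) ℂ)
    simp
  · rw [hE]
    show ((γ (1 * unitInterval.symm 0) : Matrix.unitaryGroup (Fin p) ℂ) :
        Matrix (Fin p) (Fin p) ℂ) ⊗ₖ (1 : Matrix (Fin q) (Fin q) ℂ) = _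
    simp
  · rw [hE]
    show ((γ (1 * unitInterval.symm 1) : Matrix.unitaryGroup (Fin p) ℂ) :
        Matrix (Fin p) (Fin p) ℂ) ⊗ₖ (1 : Matrix (Fin q) (Fin q) ℂ) = _
    simp

/-- A unitary in the fibre at `1` extends to a unitary joined to `1`, equal to `1` at `0`. -/
theorem exists_right (y : Matrix.unitaryGroup (Fin q) ℂ) :
    ∃ E : unitary (DimDrop p q), Joined 1 E ∧
      E.1.1 1 = (1 : Matrix (Fin p) (Fin p) ℂ) ⊗ₖ (y : Matrix (Fin q) (Fin q) ℂ) ∧
      E.1.1 0 = 1 := by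
  obtain ⟨γ⟩ := joined_one_unitaryGroup y
  let G : C(unitInterval × unitInterval, Matrix (Fin p × Fin q) (Fin p × Fin q) ℂ) :=
    ⟨fun z => (1 : Matrix (Fin p) (Fin p) ℂ) ⊗ₖ
      ((γ (z.1 * z.2) : Matrix.unitaryGroup (Fin q) ℂ) : Matrix (Fin q) (Fin q) ℂ), by
      have h1 : Continuous fun z : unitInterval × unitInterval =>
          ((γ (z.1 * z.2) : Matrix.unitaryGroup (Fin q) ℂ) : Matrix (Fin q) (Fin q) ℂ) :=
        continuous_subtype_val.comp (γ.continuous.comp (continuous_fst.mul continuous_snd))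
      refine continuous_matrix fun i j => ?_
      exact continuous_const.mul (h1.matrix_elem i.2 j.2)⟩
  have hG : ∀ z, G z ∈ Matrix.unitaryGroup (Fin p × Fin q) ℂ := fun z =>
    Matrix.kronecker_mem_unitary (one_mem _) (γ _).2
  obtain ⟨E, hE⟩ := exists_dd (fun t => G (1, t)) (G.continuous.comp (by fun_prop))
    (fun t => hG _) ⟨1, by
      show (1 : Matrix (Fin p) (Fin p) ℂ) ⊗ₖ
        ((γ (1 * 0) : Matrix.unitaryGroup (Fin q) ℂ) : Matrix (Fin q) (Fin q) ℂ) = _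
      simp⟩ ⟨_, rfl⟩
  refine ⟨E, joined_dd G hG (fun s => ⟨1, ?_⟩) (fun s => ⟨_, rfl⟩) 1 E (fun t => ?_) hE, ?_, ?_⟩
  · show (1 : Matrix (Fin p) (Fin p) ℂ) ⊗ₖ
        ((γ (s * 0) : Matrix.unitaryGroup (Fin q) ℂ) : Matrix (Fin q) (Fin q) ℂ) = _
    simp
  · show (1 : Matrix (Fin p × Fin q) (Fin p × Fin q) ℂ) = (1 : Matrix (Fin p) (Fin p) ℂ) ⊗ₖ
        ((γ (0 * t) : Matrix.unitaryGroup (Fin q) ℂ) : Matrix (Fin q) (Fin q) ℂ)
    simp
  · rw [hE]
    show (1 : Matrix (Fin p) (Fin p) ℂ) ⊗ₖ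
        ((γ (1 * 1) : Matrix.unitaryGroup (Fin q) ℂ) : Matrix (Fin q) (Fin q) ℂ) = _
    simp
  · rw [hE]
    show (1 : Matrix (Fin p) (Fin p) ℂ) ⊗ₖ
        ((γ (1 * 0) : Matrix.unitaryGroup (Fin q) ℂ) : Matrix (Fin q) (Fin q) ℂ) = _
    simp

end DDU

end Vale.Agent.P095.UZ
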