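import Vale.Agent.P095.UZ.Loops

/-!
# P095 [UZ]: pieces for row U8 (dimension drop algebras)

Homotopies in the unitary group of a dimension drop algebra; the diagonal loops around a full row
or a full column of indices are joined to `1`; the final argument with coprime exponents.
-/

open Filter Topology unitInterval
open scoped ComplexOrder Kronecker

namespace Vale.Agent.P095.UZ

open Vale.Agent.P101

namespace Pieces

variable {p q : ℕ}

/-- A homotopy through unitaries with the boundary conditions joins its ends. -/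
theorem joined_of_htp (F : C(unitInterval × unitInterval, Matrix (Fin p × Fin q) (Fin p × Fin q) ℂ))
    (hF : ∀ x, F x ∈ Matrix.unitaryGroup (Fin p × Fin q) ℂ)
    (h0 : ∀ s, ∃ x : Matrix (Fin p) (Fin p) ℂ, F (s, 0) = x ⊗ₖ (1 : Matrix (Fin q) (Fin q) ℂ))
    (h1 : ∀ s, ∃ y : Matrix (Fin q) (Fin q) ℂ, F (s, 1) = (1 : Matrix (Fin p) (Fin p) ℂ) ⊗ₖ y)
    (u v : unitary (DimDrop p q))
    (hu : ∀ t, ((u : DimDrop p q) : C(unitInterval, Matrix (Fin p × Fin q) (Fin p × Fin q) ℂ)) t
      = F (0, t))
    (hv : ∀ t, ((v : DimDrop p q) : C(unitInterval, Matrix (Fin p × Fin q) (Fin p × Fin q) ℂ)) t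
      = F (1, t)) :
    Joined u v := by
  let γ : unitInterval → unitary (DimDrop p q) := fun s =>
    ⟨⟨F.curry s, h0 s, h1 s⟩, by
      rw [Unitary.mem_iff]
      constructor
      · apply Subtype.ext
        ext1 t
        exact (Matrix.mem_unitaryGroup_iff').1 (hF (s, t))
      · apply Subtype.ext
        ext1 t
        exact (Matrix.mem_unitaryGroup_iff).1 (hF (s, t))⟩
  have hγ : Continuous γ :=
    (F.curry.continuous.subtype_mk fun s => (⟨h0 s, h1 s⟩ : F.curry s ∈ DimDrop p q)).subtype_mk _
  refine ⟨⟨⟨γ, hγ⟩, ?_, ?_⟩⟩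
  · apply Subtype.ext
    apply Subtype.ext
    ext1 t
    exact (hu t).symm
  · apply Subtype.ext
    apply Subtype.ext
    ext1 t
    exact (hv t).symm

/-- A diagonal matrix with entries of modulus one is unitary. -/
theorem diagonal_mem {ι : Type*} [Fintype ι] [DecidableEq ι] (d : ι → ℂ)
    (hd : ∀ k, star (d k) * d k = 1) : Matrix.diagonal d ∈ Matrix.unitaryGroup ι ℂ := by
  rw [Matrix.mem_unitaryGroup_iff', Matrix.star_eq_conjTranspose, Matrix.diagonal_conjTranspose,
    Matrix.diagonal_mul_diagonal]
  ext i j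
  by_cases h : i = j
  · subst h
    simp only [Matrix.diagonal_apply_eq, Pi.star_apply, Matrix.one_apply_eq]
    exact hd i
  · rw [Matrix.diagonal_apply_ne _ h, Matrix.one_apply_ne h]

theorem mem_row (a : Fin p) (k : Fin p × Fin q) :
    (k ∈ {a} ×ˢ (Finset.univ : Finset (Fin q))) ↔ k.1 = a := by
  rw [Finset.mem_product]
  simp

theorem mem_col (b : Fin q) (k : Fin p × Fin q) :
    (k ∈ (Finset.univ : Finset (Fin p)) ×ˢ {b}) ↔ k.2 = b := by
  rw [Finset.mem_product]
  simp

theorem star_exp_mul (x : ℝ) :
    star (Complex.exp (2 * Real.pi * Complex.I * x)) * Complex.exp (2 * Real.pi * Complex.I * x)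
      = 1 := by
  have h2 : (starRingEnd ℂ) 2 = 2 := Complex.conj_eq_iff_real.2 ⟨2, by norm_num⟩
  rw [Complex.star_def, ← Complex.exp_conj, ← Complex.exp_add]
  simp [h2]

/-- The row loop: all indices with first coordinate `a`. -/
theorem joined_row (a : Fin p) (u : unitary (DimDrop p q))
    (hu : ∀ t : unitInterval,
      ((u : DimDrop p q) : C(unitInterval, Matrix (Fin p × Fin q) (Fin p × Fin q) ℂ)) t
      = zmat ({a} ×ˢ (Finset.univ : Finset (Fin q))) t) :
    Joined 1 u := by
  let F : C(unitInterval × unitInterval, Matrix (Fin p × Fin q) (Fin p × Fin q) ℂ) :=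
    ⟨fun x => Matrix.diagonal fun k => if k ∈ {a} ×ˢ (Finset.univ : Finset (Fin q)) then
      Complex.exp (2 * Real.pi * Complex.I * (((x.1 : ℝ) * ((x.2 : ℝ) - 1) : ℝ) : ℂ)) else 1, by
      refine Continuous.matrix_diagonal (continuous_pi fun k => ?_)
      split_ifs
      · refine Complex.continuous_exp.comp (continuous_const.mul ?_)
        exact Complex.continuous_ofReal.comp ((continuous_subtype_val.comp continuous_fst).mul
          ((continuous_subtype_val.comp continuous_snd).sub continuous_const))
      · exact continuous_const⟩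
  refine joined_of_htp F ?_ ?_ ?_ 1 u ?_ ?_
  · intro x
    refine diagonal_mem _ fun k => ?_
    split_ifs
    · exact star_exp_mul _
    · simp
  · intro s
    refine ⟨Matrix.diagonal fun k => if k = a then
      Complex.exp (2 * Real.pi * Complex.I * (((s : ℝ) * (0 - 1) : ℝ) : ℂ)) else 1, ?_⟩
    rw [← Matrix.diagonal_one, Matrix.diagonal_kronecker_diagonal]
    change Matrix.diagonal _ = Matrix.diagonal _
    congr 1
    funext k
    simp only [mem_row]
    simp
  · intro s
    refine ⟨1, ?_⟩
    rw [Matrix.one_kronecker_one]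
    change Matrix.diagonal _ = _
    rw [← Matrix.diagonal_one]
    congr 1
    funext k
    simp
  · intro t
    change (1 : Matrix (Fin p × Fin q) (Fin p × Fin q) ℂ) = Matrix.diagonal _
    rw [← Matrix.diagonal_one]
    congr 1
    funext k
    simp
  · intro t
    rw [hu t]
    change zmat _ _ = Matrix.diagonal _
    unfold zmat
    congr 1
    funext k
    split_ifs
    · have h : 2 * Real.pi * Complex.I * (((((1 : unitInterval), t).1 : ℝ)
          * (((((1 : unitInterval), t).2 : unitInterval) : ℝ) - 1) : ℝ) : ℂ)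
          = 2 * Real.pi * Complex.I * (t : ℝ) - 2 * Real.pi * Complex.I := by
        simp
        ring
      rw [h, Complex.exp_sub, Complex.exp_two_pi_mul_I, div_one]
    · rfl

/-- The column loop: all indices with second coordinate `b`. -/
theorem joined_col (b : Fin q) (u : unitary (DimDrop p q))
    (hu : ∀ t : unitInterval,
      ((u : DimDrop p q) : C(unitInterval, Matrix (Fin p × Fin q) (Fin p × Fin q) ℂ)) t
      = zmat ((Finset.univ : Finset (Fin p)) ×ˢ {b}) t) :
    Joined 1 u := by
  let F : C(unitInterval × unitInterval, Matrix (Fin p × Fin q) (Fin p × Fin q) ℂ) :=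
    ⟨fun x => Matrix.diagonal fun k => if k ∈ (Finset.univ : Finset (Fin p)) ×ˢ {b} then
      Complex.exp (2 * Real.pi * Complex.I * (((x.1 : ℝ) * (x.2 : ℝ) : ℝ) : ℂ)) else 1, by
      refine Continuous.matrix_diagonal (continuous_pi fun k => ?_)
      split_ifs
      · refine Complex.continuous_exp.comp (continuous_const.mul ?_)
        exact Complex.continuous_ofReal.comp ((continuous_subtype_val.comp continuous_fst).mul
          (continuous_subtype_val.comp continuous_snd))
      · exact continuous_const⟩
  refine joined_of_htp F ?_ ?_ ?_ 1 u ?_ ?_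
  · intro x
    refine diagonal_mem _ fun k => ?_
    split_ifs
    · exact star_exp_mul _
    · simp
  · intro s
    refine ⟨1, ?_⟩
    rw [Matrix.one_kronecker_one]
    change Matrix.diagonal _ = _
    rw [← Matrix.diagonal_one]
    congr 1
    funext k
    simp
  · intro s
    refine ⟨Matrix.diagonal fun k => if k = b then
      Complex.exp (2 * Real.pi * Complex.I * (((s : ℝ) * 1 : ℝ) : ℂ)) else 1, ?_⟩
    rw [← Matrix.diagonal_one, Matrix.diagonal_kronecker_diagonal]
    change Matrix.diagonal _ = Matrix.diagonal _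
    congr 1
    funext k
    simp only [mem_col]
    simp
  · intro t
    change (1 : Matrix (Fin p × Fin q) (Fin p × Fin q) ℂ) = Matrix.diagonal _
    rw [← Matrix.diagonal_one]
    congr 1
    funext k
    simp
  · intro t
    rw [hu t]
    change zmat _ _ = Matrix.diagonal _
    unfold zmat
    congr 1
    funext k
    simp

/-- Coprime exponents. -/
theorem joined_of_coprime {G : Type*} [Group G] [TopologicalSpace G] [ContinuousMul G]
    (z : G) {m n : ℕ} (h : Nat.Coprime m n) (hm : Joined 1 (z ^ m)) (hn : Joined 1 (z ^ n)) :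
    Joined 1 z := by
  have hinv : ∀ y : G, Joined 1 y → Joined 1 y⁻¹ := by
    intro y hy
    have h1 := (Joined.refl y⁻¹).mul hy
    rw [mul_one, inv_mul_cancel] at h1
    exact h1.symm
  have hpow : ∀ (y : G), Joined 1 y → ∀ k : ℕ, Joined 1 (y ^ k) := by
    intro y hy k
    induction k with
    | zero => rw [pow_zero]
    | succ k ih =>
      rw [pow_succ]
      have h1 := ih.mul hy
      rwa [mul_one] at h1
  have hz : ∀ (y : G), Joined 1 y → ∀ k : ℤ, Joined 1 (y ^ k) := by
    intro y hy k
    cases k with
    | ofNat k =>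
      rw [Int.ofNat_eq_natCast, zpow_natCast]
      exact hpow y hy k
    | negSucc k =>
      rw [zpow_negSucc]
      exact hinv _ (hpow y hy _)
  have hb : (1 : ℤ) = m * Nat.gcdA m n + n * Nat.gcdB m n := by
    have h1 := Nat.gcd_eq_gcd_ab m n
    rw [Nat.Coprime.gcd_eq_one h] at h1
    exact_mod_cast h1
  have h2 := (hz _ hm (Nat.gcdA m n)).mul (hz _ hn (Nat.gcdB m n))
  rw [mul_one, ← zpow_natCast z m, ← zpow_natCast z n, ← zpow_mul, ← zpow_mul, ← zpow_add, ← hb,
    zpow_one] at h2
  exact h2

end Pieces

end Vale.Agent.P095.UZ
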