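import Vale.Agent.P095.UZ.UDefs

/-!
# P095 [UZ], row U0: loops in the unitary group
-/

open Filter Topology unitInterval
open scoped ComplexOrder Kronecker

namespace Vale.Agent.P095.UZ

open Vale.Agent.P101

universe u v

variable {ι : Type*} [Fintype ι] [DecidableEq ι]

theorem joined_of_htp (F : C(unitInterval × unitInterval, Matrix ι ι ℂ))
    (hF : ∀ x, F x ∈ Matrix.unitaryGroup ι ℂ) (h0 : ∀ s, F (s, 0) = 1) (h1 : ∀ s, F (s, 1) = 1)
    (g h : Lp ι) (hg : ∀ t, val g t = F (0, t)) (hh : ∀ t, val h t = F (1, t)) :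
    Joined g h := by
  let G : C(unitInterval × unitInterval, Matrix.unitaryGroup ι ℂ) :=
    ⟨fun x => ⟨F x, hF x⟩, F.continuous.subtype_mk _⟩
  let γ : unitInterval → Lp ι := fun s => ⟨G.curry s, Subtype.ext (h0 s), Subtype.ext (h1 s)⟩
  have hγ : Continuous γ := G.curry.continuous.subtype_mk _
  refine ⟨⟨⟨γ, hγ⟩, ?_, ?_⟩⟩
  · apply Subtype.ext
    ext1 t
    exact Subtype.ext (hg t).symm
  · apply Subtype.ext
    ext1 t
    exact Subtype.ext (hh t).symm

theorem exists_lp (f : unitInterval → Matrix ι ι ℂ) (hf : Continuous f)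
    (hu : ∀ t, f t ∈ Matrix.unitaryGroup ι ℂ) (h0 : f 0 = 1) (h1 : f 1 = 1) :
    ∃ g : Lp ι, ∀ t, val g t = f t :=
  ⟨⟨⟨fun t => ⟨f t, hu t⟩, hf.subtype_mk _⟩, Subtype.ext h0, Subtype.ext h1⟩, fun _ => rfl⟩

theorem val_mul (g h : Lp ι) (t : unitInterval) : val (g * h) t = val g t * val h t := rfl

theorem val_inv (g : Lp ι) (t : unitInterval) : val g⁻¹ t = star (val g t) := rfl

theorem val_unitary (g : Lp ι) (t : unitInterval) : val g t ∈ Matrix.unitaryGroup ι ℂ :=
  (g.1 t).2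

theorem lp_ext {g h : Lp ι} (H : ∀ t, val g t = val h t) : g = h := by
  apply Subtype.ext
  ext1 t
  exact Subtype.ext (H t)

theorem continuous_val (g : Lp ι) : Continuous (val g) :=
  continuous_subtype_val.comp g.1.continuous

end Vale.Agent.P095.UZ
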