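import Vale.Agent.P095.UZ.UDefs
import Vale.Agent.P101.LimitHom

/-!
# P095 [UZ]: exponentials in dimension drop algebras
-/

open Filter Topology unitInterval
open scoped ComplexOrder Kronecker Matrix.Norms.L2Operator

namespace Vale.Agent.P095.UZ

open Vale.Agent.P101 Complex

/-- every unitary matrix is an exponential -/
theorem exists_exp_eq {n : Type*} [Fintype n] [DecidableEq n] (x : Matrix n n ℂ)
    (hx : x ∈ Matrix.unitaryGroup n ℂ) :
    ∃ h : Matrix n n ℂ, IsSelfAdjoint h ∧ NormedSpace.exp (Complex.I • h) = x := by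
  refine ⟨cfc (ofReal ∘ arg : ℂ → ℂ) x, IsSelfAdjoint.cfc_arg x, ?_⟩
  have hx' : x ∈ unitary (Matrix n n ℂ) := hx
  have hn : IsStarNormal x := by
    have := (⟨x, hx'⟩ : unitary (Matrix n n ℂ))
    exact ⟨by
      rw [commute_iff_eq, (Unitary.mem_iff.1 hx').1, (Unitary.mem_iff.1 hx').2]⟩
  have hfin : (spectrum ℂ x).Finite := Matrix.finite_spectrum x
  have hc : ContinuousOn (ofReal ∘ arg : ℂ → ℂ) (spectrum ℂ x) := hfin.continuousOn _
  have hc2 : ContinuousOn (fun z : ℂ => Complex.I • (ofReal ∘ arg : ℂ → ℂ) z) (spectrum ℂ x) :=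
    hfin.continuousOn _
  rw [← CFC.exp_eq_normedSpace_exp (𝕜 := ℂ), ← cfc_smul Complex.I (ofReal ∘ arg : ℂ → ℂ) x hc,
    ← cfc_comp' NormedSpace.exp (fun z : ℂ => Complex.I • (ofReal ∘ arg : ℂ → ℂ) z) x]
  conv_rhs => rw [← cfc_id' ℂ x]
  refine cfc_congr fun y hy => ?_
  have hy₁ : ‖y‖ = 1 := spectrum.norm_eq_one_of_unitary hx' hy
  have h2 : Complex.I * (y.arg : ℂ) = log y :=
    Complex.ext (by simp [log_re, hy₁]) (by simp [log_im])
  have hy0 : y ≠ 0 := by
    intro h0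
    rw [h0, norm_zero] at hy₁
    exact zero_ne_one hy₁
  simp only [Function.comp_apply, smul_eq_mul, h2]
  rw [← Complex.exp_eq_exp_ℂ]
  exact exp_log hy0

end Vale.Agent.P095.UZ
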