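import Vale.Agent.P095.UZ.UDefs

/-!
# P095 [UZ]: a continuous function on `[0,1]` is close to one without zeros
-/

open Filter Topology unitInterval
open scoped ComplexOrder

namespace Vale.Agent.P095.UZ

/-- Continuous complex functions on `[0,1]` are uniformly close to nowhere vanishing ones. -/
theorem exists_nonzero_near (w : unitInterval → ℂ) (hw : Continuous w) (e : ℝ) (he : 0 < e) :
    ∃ w' : unitInterval → ℂ, Continuous w' ∧ (∀ t, w' t ≠ 0) ∧ ∀ t, ‖w' t - w t‖ < e := by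
  obtain ⟨p, hp⟩ := exists_polynomial_near_continuousMap 0 1
    (⟨fun t => (w t).re, Complex.continuous_re.comp hw⟩ : C(Set.Icc (0 : ℝ) 1, ℝ)) (e / 4)
    (by positivity)
  obtain ⟨r, hr⟩ := exists_polynomial_near_continuousMap 0 1
    (⟨fun t => (w t).im, Complex.continuous_im.comp hw⟩ : C(Set.Icc (0 : ℝ) 1, ℝ)) (e / 4)
    (by positivity)
  let P : ℝ → ℂ := fun x => ((p.eval x : ℝ) : ℂ) + ((r.eval x : ℝ) : ℂ) * Complex.I
  have hP : ContDiff ℝ 1 P := by
    have h0 : ∀ p : Polynomial ℝ, ContDiff ℝ 1 fun x : ℝ => p.eval x := fun p => by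
      simpa using p.contDiff_aeval (𝕜 := ℝ) 1
    have h1 : ContDiff ℝ 1 fun x : ℝ => ((p.eval x : ℝ) : ℂ) :=
      Complex.ofRealCLM.contDiff.comp (h0 p)
    have h2 : ContDiff ℝ 1 fun x : ℝ => ((r.eval x : ℝ) : ℂ) :=
      Complex.ofRealCLM.contDiff.comp (h0 r)
    exact h1.add (h2.mul contDiff_const)
  have hd : Dense (Set.range P)ᶜ := hP.dense_compl_range_of_finrank_lt_finrank (by simp)
  obtain ⟨b, hb, hb'⟩ := hd.exists_dist_lt 0 (show (0 : ℝ) < e / 4 by positivity)
  refine ⟨fun t => P t - b, ?_, ?_, ?_⟩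
  · exact (hP.continuous.comp continuous_subtype_val).sub continuous_const
  · intro t h
    exact hb ⟨t, sub_eq_zero.1 h⟩
  · intro t
    have h1 : |p.eval (t : ℝ) - (w t).re| < e / 4 := by
      have := ContinuousMap.norm_coe_le_norm (p.toContinuousMapOn (Set.Icc (0 : ℝ) 1) -
        (⟨fun t => (w t).re, Complex.continuous_re.comp hw⟩ : C(Set.Icc (0 : ℝ) 1, ℝ))) t
      exact lt_of_le_of_lt this hp
    have h2 : |r.eval (t : ℝ) - (w t).im| < e / 4 := by
      have := ContinuousMap.norm_coe_le_norm (r.toContinuousMapOn (Set.Icc (0 : ℝ) 1) -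
        (⟨fun t => (w t).im, Complex.continuous_im.comp hw⟩ : C(Set.Icc (0 : ℝ) 1, ℝ))) t
      exact lt_of_le_of_lt this hr
    have h3 : P t - b - w t = ((p.eval (t : ℝ) - (w t).re : ℝ) : ℂ) +
        ((r.eval (t : ℝ) - (w t).im : ℝ) : ℂ) * Complex.I - b := by
      simp only [P]
      conv_lhs => rw [← Complex.re_add_im (w t)]
      push_cast
      ring
    rw [h3]
    have h4 : ‖b‖ < e / 4 := by
      rw [dist_zero_left] at hb'
      exact hb'
    have h5 : ‖((p.eval (t : ℝ) - (w t).re : ℝ) : ℂ)‖ < e / 4 := by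
      rw [Complex.norm_real]; exact h1
    have h6 : ‖((r.eval (t : ℝ) - (w t).im : ℝ) : ℂ) * Complex.I‖ < e / 4 := by
      rw [norm_mul, Complex.norm_I, mul_one, Complex.norm_real]; exact h2
    have h7 := norm_sub_le (((p.eval (t : ℝ) - (w t).re : ℝ) : ℂ) +
        ((r.eval (t : ℝ) - (w t).im : ℝ) : ℂ) * Complex.I) b
    have h8 := norm_add_le ((p.eval (t : ℝ) - (w t).re : ℝ) : ℂ)
      (((r.eval (t : ℝ) - (w t).im : ℝ) : ℂ) * Complex.I)
    linarith

end Vale.Agent.P095.UZ
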