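import Vale.Agent.P095.NU.Defs
import Vale.Agent.P101.LimitHom
import Vale.Agent.P101.Transfer

/-!
# P095 [UZ]: the unitary group of the Jiang-Su algebra is path connected: definitions
-/

open Filter Topology unitInterval
open scoped ComplexOrder Kronecker

namespace Vale.Agent.P095.UZ

open Vale.Agent.P101

universe u v

variable {ι : Type*} [Fintype ι] [DecidableEq ι]

/-- based loops in `U(n)` -/
noncomputable def Lp (ι : Type*) [Fintype ι] [DecidableEq ι] :
    Subgroup C(unitInterval, Matrix.unitaryGroup ι ℂ) where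
  carrier := {g | g 0 = 1 ∧ g 1 = 1}
  one_mem' := ⟨rfl, rfl⟩
  mul_mem' := by
    rintro a b ⟨h1, h2⟩ ⟨h3, h4⟩
    exact ⟨by rw [ContinuousMap.mul_apply, h1, h3, one_mul],
      by rw [ContinuousMap.mul_apply, h2, h4, one_mul]⟩
  inv_mem' := by
    rintro a ⟨h1, h2⟩
    exact ⟨by rw [ContinuousMap.inv_apply, h1, inv_one],
      by rw [ContinuousMap.inv_apply, h2, inv_one]⟩

/-- value of a loop, as a matrix -/
noncomputable def val (g : Lp ι) (t : unitInterval) : Matrix ι ι ℂ := (g.1 t : Matrix ι ι ℂ)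

/-- unit vectors -/
def IsUnitVec (v : ι → ℂ) : Prop := ∑ k, star (v k) * v k = 1

/-- the basic loop of winding number `n` in the coordinates of `S` (diagonal matrix with entries
`exp (2 π i n t)` for `k ∈ S`, and `1` otherwise) -/
noncomputable def zmat (S : Finset ι) (t : ℝ) : Matrix ι ι ℂ :=
  Matrix.diagonal fun k => if k ∈ S then Complex.exp (2 * Real.pi * Complex.I * t) else 1

/-- the explicit rotation -/
noncomputable def rot (i : ι) (v : ι → ℂ) : Matrix ι ι ℂ :=
  1 - (1 + star (v i))⁻¹ • Matrix.vecMulVec (Pi.single i 1 + v) (star (Pi.single i 1 + v)) +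
    (2 : ℂ) • Matrix.vecMulVec v (star (Pi.single i (1 : ℂ)))

end Vale.Agent.P095.UZ
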