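import Vale.Agent.P095.UZ.ZConnOf
import Vale.Agent.P095.UZ.DimDropU

/-!
# P095 [UZ], row U9: the unitary group of the Jiang-Su algebra is path connected
-/

namespace Vale.Agent.P095.UZ

open Vale.Agent.P101

universe u

theorem pathConnected_unitary {Z : Type u} [CStarAlgebra Z] (hZ : IsDimDropLimit Z) :
    PathConnectedSpace (unitary Z) :=
  pathConnected_unitary_of (fun _ _ hp hq hpq u => dimDrop_connected hp hq hpq u) hZ

end Vale.Agent.P095.UZ

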