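import Vale.Agent.P095.UZ.UDefs
import Vale.Agent.P101.Flip

/-!
# P095 [UZ], row U9: from the dimension drop algebras to the limit
-/

open Filter Topology unitInterval
open scoped ComplexOrder Kronecker

namespace Vale.Agent.P095.UZ

open Vale.Agent.P101

universe u v

section

open scoped Matrix.Norms.L2Operator

/-- A unital star homomorphism from a dimension drop algebra into a C*-algebra is continuous. -/
theorem continuous_dimDrop_hom {p q : ℕ} {Z : Type u} [CStarAlgebra Z]
    (φ : DimDrop p q →⋆ₐ[ℂ] Z) : Continuous φ := by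
  have : IsClosed (DimDrop p q : Set C(unitInterval, Matrix (Fin p × Fin q) (Fin p × Fin q) ℂ)) :=
    isClosed_dimDrop p q
  exact AddMonoidHomClass.continuous_of_bound φ 1
    (fun b => by rw [one_mul]; exact NonUnitalStarAlgHom.norm_apply_le φ b)

/-- Unitaries of `Z` close to the image of `D` are close to the image of a unitary. -/
theorem exists_unitary_of_injective {D Z : Type*} [CStarAlgebra D] [CStarAlgebra Z]
    (φ : D →⋆ₐ[ℂ] Z) (hφ : Function.Injective φ) (u : unitary Z) (d : D)
    (hd : ‖(u : Z) - φ d‖ < 1 / 8) : ∃ v : unitary D, ‖φ v - (u : Z)‖ < 2 := by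
  have hiso : ∀ x : D, ‖φ x‖ = ‖x‖ := NonUnitalStarAlgHom.norm_map φ hφ
  have hu1 : ‖(u : Z)‖ ≤ 1 := by
    rcases subsingleton_or_nontrivial Z with hT | hT
    · rw [Subsingleton.elim (u : Z) 0, norm_zero]
      exact zero_le_one
    · exact (CStarRing.norm_of_mem_unitary u.2).le
  set a : Z := φ d with ha
  have ha1 : ‖a‖ ≤ 9 / 8 := by
    have h1 : a = (u : Z) - ((u : Z) - a) := by abel
    rw [h1]
    refine (norm_sub_le _ _).trans ?_
    linarith
  have hau : ‖a - (u : Z)‖ < 1 / 8 := by rwa [norm_sub_rev]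
  have e1 : ‖star d * d - 1‖ ≤ 3 / 8 := by
    rw [← hiso, map_sub, map_mul, map_star, map_one, ← (Unitary.mem_iff.1 u.2).1, ← ha]
    have h2 : star a * a - star (u : Z) * u = star (a - u) * a + star (u : Z) * (a - u) := by
      rw [star_sub]
      noncomm_ring
    rw [h2]
    refine (norm_add_le _ _).trans ?_
    have h3 : ‖star (a - (u : Z)) * a‖ ≤ 1 / 8 * (9 / 8) := by
      refine (norm_mul_le _ _).trans ?_
      rw [norm_star]
      exact mul_le_mul hau.le ha1 (norm_nonneg _) (by norm_num)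
    have h4 : ‖star (u : Z) * (a - u)‖ ≤ 1 * (1 / 8) := by
      refine (norm_mul_le _ _).trans ?_
      rw [norm_star]
      exact mul_le_mul hu1 hau.le (norm_nonneg _) (by norm_num)
    linarith
  have e2 : ‖d * star d - 1‖ ≤ 3 / 8 := by
    rw [← hiso, map_sub, map_mul, map_star, map_one, ← (Unitary.mem_iff.1 u.2).2, ← ha]
    have h2 : a * star a - (u : Z) * star (u : Z) =
        a * star (a - u) + (a - u) * star (u : Z) := by
      rw [star_sub]
      noncomm_ring
    rw [h2]
    refine (norm_add_le _ _).trans ?_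
    have h3 : ‖a * star (a - (u : Z))‖ ≤ 9 / 8 * (1 / 8) := by
      refine (norm_mul_le _ _).trans ?_
      rw [norm_star]
      exact mul_le_mul ha1 hau.le (norm_nonneg _) (by norm_num)
    have h4 : ‖(a - (u : Z)) * star (u : Z)‖ ≤ 1 / 8 * 1 := by
      refine (norm_mul_le _ _).trans ?_
      rw [norm_star]
      exact mul_le_mul hau.le hu1 (norm_nonneg _) (by norm_num)
    linarith
  obtain ⟨v, hv, hvd⟩ := exists_unitary_near d (by norm_num) e1 e2
  refine ⟨⟨v, hv⟩, ?_⟩
  have h5 : φ v - (u : Z) = φ (v - d) + (a - u) := by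
    rw [map_sub, ← ha]
    abel
  show ‖φ v - (u : Z)‖ < 2
  rw [h5]
  refine (norm_add_le _ _).trans_lt ?_
  rw [hiso]
  linarith

/-- The same for dimension drop algebras. -/
theorem exists_unitary_dimDrop {p q : ℕ} {Z : Type u} [CStarAlgebra Z]
    (φ : DimDrop p q →⋆ₐ[ℂ] Z) (hφ : Function.Injective φ) (u : unitary Z) (d : DimDrop p q)
    (hd : ‖(u : Z) - φ d‖ < 1 / 8) : ∃ v : unitary (DimDrop p q), ‖φ v - (u : Z)‖ < 2 := by
  have : IsClosed (DimDrop p q : Set C(unitInterval, Matrix (Fin p × Fin q) (Fin p × Fin q) ℂ)) :=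
    isClosed_dimDrop p q
  exact exists_unitary_of_injective φ hφ u d hd

end

/-- If the unitary groups of the prime dimension drop algebras are path connected, then so is
the unitary group of every limit. -/
theorem pathConnected_unitary_of (hDD : ∀ p q : ℕ, 0 < p → 0 < q → Nat.Coprime p q →
    ∀ u : unitary (DimDrop p q), Joined 1 u) {Z : Type u} [CStarAlgebra Z]
    (hZ : IsDimDropLimit Z) : PathConnectedSpace (unitary Z) := by
  obtain ⟨S, -, hiso, hdense⟩ := hZ
  have key : ∀ u : unitary Z, Joined 1 u := by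
    intro u
    obtain ⟨a, ha, hau⟩ := hdense.exists_dist_lt (u : Z) (by norm_num : (0 : ℝ) < 1 / 8)
    rw [Set.mem_iUnion] at ha
    obtain ⟨k, ha⟩ := ha
    obtain ⟨p, q, hp, hq, hpq, ⟨e⟩⟩ := hiso k
    let φ : DimDrop p q →⋆ₐ[ℂ] Z := (S k).subtype.comp (e.symm : DimDrop p q →⋆ₐ[ℂ] S k)
    have hφ : Function.Injective φ := by
      intro x y hxy
      exact e.symm.injective (Subtype.ext hxy)
    have hφe : φ (e ⟨a, ha⟩) = a := by
      show ((e.symm (e ⟨a, ha⟩) : S k) : Z) = a
      rw [StarAlgEquiv.symm_apply_apply]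
    obtain ⟨v, hv⟩ := exists_unitary_dimDrop φ hφ u (e ⟨a, ha⟩) (by
      rw [hφe, ← dist_eq_norm]
      exact hau)
    have h1 : Joined (1 : unitary (DimDrop p q)) v := hDD p q hp hq hpq v
    let F : unitary (DimDrop p q) → unitary Z := fun w => ⟨φ w, by
      rw [Unitary.mem_iff, ← map_star, ← map_mul, ← map_mul, (Unitary.mem_iff.1 w.2).1,
        (Unitary.mem_iff.1 w.2).2, map_one]
      exact ⟨rfl, rfl⟩⟩
    have hF : Continuous F :=
      ((continuous_dimDrop_hom φ).comp continuous_subtype_val).subtype_mk _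
    have h2 : Joined (F 1) (F v) := h1.map hF
    have h3 : F 1 = 1 := Subtype.ext (map_one φ)
    rw [h3] at h2
    refine h2.trans ?_
    refine Unitary.joined (F v) u ?_
    rw [norm_sub_rev]
    exact hv
  exact ⟨⟨1⟩, fun x y => (key x).symm.trans (key y)⟩

end Vale.Agent.P095.UZ
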